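import Vale.Agent.P287Q.G.G3.JetD
import Vale.Agent.P287Q.G.Pt.Rep
import Vale.Agent.P269.Base.MerA

/-!
# Jets of the fields at a marked point: algebra
-/

set_option linter.unusedSectionVars false

namespace Vale.Agent.P269.Ch

open Set Function Topology Filter Base Cv

variable {S Λ R J K ι ν κ : Type} [Fintype S] [Fintype Λ] [Fintype R] [Fintype J] [Fintype K]
  [Fintype ι] [DecidableEq ι] [Fintype ν] [Fintype κ] {ch : Ch ι J} {F : Fam S Λ R J K}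
  {ℓ : R → ι → ℤ} {x : ch.WF ν κ Λ} {v v' : V ch.M} {n : Mk ν κ} {j : J} {r : ℕ}

namespace JetA

variable {γ δ : ℂ → V ch.M}

theorem br_scale {C : Set (V ch.M)} (h : IsBranch ch.o C γ) {b : ℂ} (hb : b ≠ 0) :
    IsBranch ch.o C (fun t => γ (b * t)) ∧ deriv (fun t => γ (b * t)) 0 = b • deriv γ 0 := by
  have e : deriv (fun t => γ (b * t)) 0 = b • deriv γ 0 := by
    rw [deriv_comp_mul_left, mul_zero]
  have a : AnalyticAt ℂ (fun t : ℂ => b * t) 0 := by fun_prop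
  have t : Tendsto (fun t : ℂ => b * t) (𝓝 0) (𝓝 0) := by simpa using a.continuousAt.tendsto
  refine ⟨⟨h.holo.comp_of_eq a (mul_zero b), t.eventually h.mem, ?_⟩, e⟩
  rw [e, mul_zero]
  refine li_pair_iff.2 ⟨(li_pair_iff.1 h.imm).1, fun c s k => ?_⟩
  rw [Pi.smul_apply, smul_smul] at k
  exact (mul_eq_zero.1 (Psi.eq_zero h k)).resolve_right hb

theorem an_fld (hx : x ∈ ch.solF ν κ F) (hγ : IsBranch ch.o (crv x.2) γ) :
    AnalyticAt ℂ (fun t => fld x.2 (γ t) j) 0 := by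
  obtain ⟨X, _, _, _, Q, N, A, π, u, p, ξ, c⟩ := Cv.exists_cr hx.1.2.1
  obtain ⟨s, a⟩ := (c.exists_ind_iff (j := j)).2 fun y hy => ((mem_solF.1 hx).2 y hy).1 j
  obtain ⟨f, hf, e⟩ := c.par.exists_isSecZ (c.ind_mem a)
  refine (hf.holo γ hγ).congr (hγ.mem.mono fun t ht => ?_)
  obtain ⟨y, σ, b, d⟩ := (c.par.img _).1 ht
  change f (γ t) = fld x.2 (γ t) j
  rw [d, hf.hom _ b _ (c.par.mem y), e, c.fld_smul a y b]

theorem fld_hom (hx : x ∈ ch.solF ν κ F) {c : V ch.M} (hc : c ∈ crv x.2) {t : ι → ℂ}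
    (ht : ∀ i, t i ≠ 0) : fld x.2 (t • c) j = (∏ i, t i ^ ch.wd j i) * fld x.2 c j :=
  Cv.fld_eq (crv_smul hc ht) ((val_fld (((mem_solF.1 hx).2 c hc).1 j)).smul ht)

theorem ex_br (hx : x ∈ ch.solF ν κ F) (n : Mk ν κ) :
    ∃ γ, IsBranch ch.o (crv x.2) γ ∧ γ 0 = x.2.p n :=
  Psi.exists_br hx.1.2.1.2.2.1.nod (hx.1.2.1.2.2.2.1 n).1

/-- change of the branch -/
theorem vz_change (hx : x ∈ ch.solF ν κ F) (hγ : IsBranch ch.o (crv x.2) γ)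
    (hδ : IsBranch ch.o (crv x.2) δ) (e : γ 0 = x.2.p n) (e' : δ 0 = x.2.p n) :
    ∃ a : ℂ, deriv δ 0 - a • deriv γ 0 ∈ (ch.sdψ S Λ n).N x ∧ ∀ w y,
      Vz w (fun t => fld x.2 (γ t) j) y → Vz w (fun t => fld x.2 (δ t) j) (a ^ w * y) := by
  obtain ⟨_, s, ψ, e1, e2, e3, e4, e5, e6, e7⟩ := (hx.1.2.1.2.2.1.nod.loc_of_branch hγ
    (e ▸ (hx.1.2.1.2.2.2.1 n).2)).reparam hδ (e'.trans e.symm)
  refine ⟨deriv ψ 0, mem_sdψ_N.2 ⟨deriv s 0, by rw [e7, add_sub_cancel_left, e]⟩, fun w y hy => ?_⟩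
  have t1 : Tendsto ψ (𝓝 0) (𝓝 0) := by simpa [e4] using e2.continuousAt.tendsto
  have := (hy.comp e2 e4 e5).an_mul (an_prod_zpow e1 (by simp [e3]) (ch.wd j))
  simp only [e3, Pi.one_apply, one_zpow, Finset.prod_const_one, one_mul] at this
  refine this.congr (mem_nhdsWithin_of_mem_nhds ?_)
  filter_upwards [e6, t1.eventually hγ.mem, eventually_all.2 fun i =>
    (continuousAt_pi.1 e1.continuousAt i).eventually_ne (y := 0) (by simp [e3])] with t k1 k2 k3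
  rw [k1, fld_hom hx k2 k3]

theorem vz_of (hx : x ∈ ch.solF ν κ F) (hγ : IsBranch ch.o (crv x.2) γ)
    (hδ : IsBranch ch.o (crv x.2) δ) (e : γ 0 = x.2.p n) (e' : δ 0 = x.2.p n) {a : ℂ}
    (ha : deriv δ 0 - a • deriv γ 0 ∈ (ch.sdψ S Λ n).N x) {y : ℂ}
    (hy : Vz r (fun t => fld x.2 (γ t) j) y) : Vz r (fun t => fld x.2 (δ t) j) (a ^ r * y) := by
  obtain ⟨b, h1, h2⟩ := vz_change (j := j) hx hγ hδ e e'
  obtain ⟨c, hc⟩ := mem_sdψ_N.1 (sub_mem ha h1)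
  rw [sub_sub_sub_cancel_left, ← sub_smul, ← e] at hc
  rw [← sub_eq_zero.1 (Psi.eq_zero hγ (congrFun hc ch.o)), ← zpow_natCast]
  exact h2 _ _ hy

theorem vo_of (hx : x ∈ ch.solF ν κ F) (hγ : IsBranch ch.o (crv x.2) γ) (e : γ 0 = x.2.p n)
    {y : ℂ} (hy : Vz r (fun t => fld x.2 (γ t) j) y) : Vo x.2 j (x.2.p n) r := fun _ hδ e' =>
  let ⟨_, _, h⟩ := vz_change hx hγ hδ e e'
  (h _ _ hy).dv (an_fld hx hδ)

theorem ex_dir (h : (x, v) ∈ jD F n j r) :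
    ∃ γ, IsBranch ch.o (crv x.2) γ ∧ γ 0 = x.2.p n ∧ deriv γ 0 - v ∈ (ch.sdψ S Λ n).N x := by
  obtain ⟨γ, a, b⟩ := ex_br h.1 n
  obtain ⟨c, hc⟩ := (mem_sdψ_B h.1.1.2.1 a b).1 h.2.2.1
  have c0 : c ≠ 0 := fun k => h.2.2.2 (by rwa [k, zero_smul, sub_zero] at hc)
  obtain ⟨d, e⟩ := br_scale a c0
  exact ⟨_, d, by rw [mul_zero, b], by rw [e, ← neg_sub]; exact neg_mem hc⟩

theorem jt_spec (h : (x, v) ∈ jD F n j r) (hγ : IsBranch ch.o (crv x.2) γ) (e : γ 0 = x.2.p n)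
    (he : deriv γ 0 - v ∈ (ch.sdψ S Λ n).N x) :
    Vz r (fun t => fld x.2 (γ t) j) (jF n j r (x, v)) := by
  obtain ⟨y, hy⟩ := Vz.of_dv (h.2.1 γ hγ e)
  refine Classical.epsilon_spec (p := fun a => ∀ γ, IsBranch ch.o (crv x.2) γ → γ 0 = x.2.p n →
    deriv γ 0 - v ∈ Psi.Nr (x.2.p n) → Vz r (fun t => fld x.2 (γ t) j) a)
    ⟨y, fun δ hδ e' he' => ?_⟩ γ hγ e he
  have := vz_of (a := 1) h.1 hγ hδ e e' (by simpa using sub_mem he' he) hy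
  rwa [one_pow, one_mul] at this

theorem mem_jD (hx : x ∈ ch.solF ν κ F) (hγ : IsBranch ch.o (crv x.2) γ) (e : γ 0 = x.2.p n)
    (he : deriv γ 0 - v ∈ (ch.sdψ S Λ n).N x) {y : ℂ} (hy : Vz r (fun t => fld x.2 (γ t) j) y) :
    (x, v) ∈ jD F n j r ∧ jF n j r (x, v) = y := by
  have h : (x, v) ∈ jD F n j r := ⟨hx, vo_of hx hγ e hy, (mem_sdψ_B hx.1.2.1 hγ e).2
    ⟨1, by rw [one_smul, ← neg_sub]; exact neg_mem he⟩,
    fun k => notMem_sdψ_N (S := S) hγ e (by simpa using add_mem he k)⟩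
  exact ⟨h, (jt_spec h hγ e he).unique hy⟩

end JetA

open JetA

theorem vo_zero (hx : x ∈ ch.solF ν κ F) : Vo x.2 j (x.2.p n) 0 :=
  fun _ hγ _ => .zero (an_fld hx hγ)

theorem vo_one (hx : x ∈ ch.solF ν κ F) : Vo x.2 j (x.2.p n) 1 ↔ (vl x n).2 j = 0 := by
  refine ⟨fun h => ?_, fun h γ hγ e => .one (an_fld hx hγ) (by rw [e]; exact h)⟩
  obtain ⟨γ, a, b⟩ := ex_br hx n
  have := Dv.eq_zero (r := 0) (h γ a b)
  rwa [b] at this

theorem Vo.mono {r' : ℕ} (h : Vo x.2 j (x.2.p n) r) (e : r' ≤ r) : Vo x.2 j (x.2.p n) r' :=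
  fun γ a b => (h γ a b).mono e

theorem jF_eq_zero (h : (x, v) ∈ jD F n j r) :
    jF n j r (x, v) = 0 ↔ Vo x.2 j (x.2.p n) (r + 1) := by
  obtain ⟨γ, a, b, c⟩ := ex_dir h
  have d := jt_spec h a b c
  refine ⟨fun e => ?_, fun e => ?_⟩
  · obtain ⟨y, hy⟩ := (e ▸ d).succ
    exact vo_of h.1 a b (y := y) (by rwa [Nat.cast_succ])
  · obtain ⟨y, hy⟩ := Vz.of_dv (e γ a b)
    exact d.unique (hy.lt (by omega))

theorem jF_smul (h : (x, v) ∈ jD F n j r) {a : ℂ} (ha : a ≠ 0)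
    (e : v' - a • v ∈ (ch.sdψ S Λ n).N x) :
    (x, v') ∈ jD F n j r ∧ jF n j r (x, v') = a ^ r * jF n j r (x, v) := by
  obtain ⟨γ, b, c, d⟩ := ex_dir h
  obtain ⟨b', d'⟩ := br_scale b ha
  have c' : γ (a * 0) = x.2.p n := by rw [mul_zero, c]
  refine mem_jD h.1 b' c' ?_ (vz_of h.1 b b' c c' (by rw [d', sub_self]; exact zero_mem _)
    (jt_spec h b c d))
  have := sub_mem (Submodule.smul_mem _ a d) e
  rwa [smul_sub, sub_sub, add_sub_cancel, ← d'] at this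

theorem jF_act (hF : F.Inv) (hw : ∀ j i, ch.wd j i = ∑ r, F.w j r * ℓ r i) {s : ch.AF ν κ S}
    (hs : IsUnit s) (h : (x, v) ∈ jD F n j r) :
    (actF F.toWt s x, (ch.sdψ S Λ n).ρ s v) ∈ jD F n j r ∧
      jF n j r (actF F.toWt s x, (ch.sdψ S Λ n).ρ s v) = chT (F.wt j) (F.w j)
        (s.1, fun r => ∏ i, (dup s.2).2.2 n i ^ ℓ r i) * jF n j r (x, v) := by
  obtain ⟨γ, a, b, c⟩ := ex_dir h
  have hx := actF_mem_solF hF hs h.1
  have ht := (Cv.isUnit_iff.1 (isUnit_dupF hs)).2.2 n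
  obtain ⟨L, hL⟩ : ∃ L : V ch.M →L[ℂ] V ch.M, ∀ v, L v = (ch.sdψ S Λ n).ρ s v :=
    ⟨.pi fun i => (dup s.2).2.2 n i • (s.2.1 i).comp (.proj i), fun _ => rfl⟩
  have m : ∀ c ∈ crv x.2, (fun i => s.2.1 i (c i)) ∈ crv (actF F.toWt s x).2 := fun c hc =>
    (mem_crv_actF hs).2 ⟨c, hc, rfl⟩
  have d : deriv (fun t => L (γ t)) 0 = L (deriv γ 0) :=
    (L.hasFDerivAt.comp_hasDerivAt 0 a.holo.differentiableAt.hasDerivAt).deriv
  have a' : IsBranch ch.o (crv (actF F.toWt s x).2) fun t => L (γ t) := by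
    refine ⟨(L.analyticAt _).comp a.holo, a.mem.mono fun t k => hL _ ▸ crv_smul (m _ k) ht, ?_⟩
    rw [d, hL, hL]
    have i : Injective (s.2.1 ch.o) :=
      LeftInverse.injective (inv_ap ((Cv.isUnit_iff.1 (isUnit_dupF hs)).1 ch.o))
    refine li_pair_iff.2 ⟨crv_ne (crv_smul (m _ a.mem.self_of_nhds) ht) _, fun e z k =>
      Psi.eq_zero a (s := z) (i (smul_right_injective _ (ht ch.o) ?_))⟩
    simp only [map_smul, smul_comm ((dup s.2).2.2 n ch.o)]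
    exact k
  refine mem_jD hx a' (by rw [b, hL]; rfl) ?_ (((jt_spec h a b c).const_mul _).congr
    (mem_nhdsWithin_of_mem_nhds (a.mem.mono fun t k => ?_)))
  · obtain ⟨z, hz⟩ := mem_sdψ_N.1 c
    rw [d, ← hL, ← map_sub, hz, hL]
    refine mem_sdψ_N.2 ⟨z, funext fun i => ?_⟩
    simp only [actF_p, Pi.smul_apply', map_smul, smul_comm (z i)]
  · refine Eq.trans ?_ ((congrArg (fld _ · j) (hL _)).trans (fld_hom hx (m _ k) ht)).symm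
    rw [fld_actF hs k (((mem_solF.1 h.1).2 _ k).1 j), chT, prod_prod_zpow ht]
    simp only [hw]
    ring

theorem Rep.vo {m : AM Λ R J ν κ} (h : Rep ℓ univ x m) (hx : x ∈ ch.solF ν κ F)
    (hw : ∀ j i, ch.wd j i = ∑ r, F.w j r * ℓ r i) : Vo x.2 j (x.2.p n) r ↔
      (r : ℕ∞) ≤ (bz m.L (F.w j)).ord (m.y j) (m.p n) := by
  obtain ⟨B, π, u, s, d⟩ := h.exists_data hx.1.2.1
  have k : ∀ γ, IsBranch ch.o (crv x.2) γ → γ 0 = x.2.p n →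
      ((Dv r fun t => fld x.2 (γ t) j) ↔ (r : ℕ∞) ≤ (bz m.L (F.w j)).ord (m.y j) (m.p n)) :=
    fun γ a b => by
      obtain ⟨y, o, e⟩ := d.cr.order_eq (d.ind j trivial) a
      obtain ⟨t, -, f⟩ := o.symm
      rw [← (d.eqv_wd hw j).ord, ← d.cr.orb_mark.1 ⟨t, b ▸ f⟩, ← e]
      simp [Dv, natCast_le_analyticOrderAt (an_fld hx a)]
  obtain ⟨γ, a, b⟩ := ex_br hx n
  exact ⟨fun e => (k γ a b).1 (e γ a b), fun e δ a b => (k δ a b).2 e⟩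

end Vale.Agent.P269.Ch
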