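import Vale.Agent.P287Q.G.G3.Num
import Vale.Agent.P269.Pt.Cmp

/-!
# Caps: maps with maximal contact are smooth
-/

set_option linter.unusedSectionVars false

namespace Vale.Agent.P269

open P291Z Set Function Topology Filter Cv

namespace Bdy

section cv

variable {X : Type} [TopologicalSpace X] [T2Space X] [CompactSpace X] {R : RS X} {L : LB R}
  {N : Finset (X × X)} {s : X → ℂ} {U : Set X}

theorem sum_le_degOn (hU : IsClopen U) (h : s ∈ L.Γ) (g : U ⊆ Gen s) {T : Finset X}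
    (hT : ∀ x ∈ T, x ∈ U) {k : X → ℕ} (hk : ∀ x ∈ T, (k x : ℕ∞) ≤ L.ord s x) :
    (∑ x ∈ T, k x : ℕ) ≤ degOn L U := by
  classical
  rw [degOn_eq_sum hU (fun x _ => h x) g
    (Z := (finite_zeros_on hU (fun x _ => h x) g).toFinset ∪ T)
    (fun y a b c => b (Finset.mem_union_left _ (by simpa using ⟨a, c⟩)))
    fun y a => (Finset.mem_union.1 a).elim (fun a => (by simpa using a : _ ∧ _).1) (hT y)]
  norm_cast
  exact (Finset.sum_le_sum fun x hx => ENat.toNat_le_toNat (hk x hx)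
    ((h x).ord_ne_top.2 (g (hT x hx)))).trans
      (Finset.sum_le_sum_of_subset Finset.subset_union_right)

theorem finsum_eq_zero (hN : Nd N) {f : X → ℤ} (h : ∀ x, Sm N x → f x = 0)
    (h' : ∀ n ∈ N, f n.1 + f n.2 = 0) : ∑ᶠ x, f x = 0 := by
  classical
  rw [finsum_eq_sum_of_support_subset (s := N.image Prod.fst ∪ N.image Prod.snd) _ fun x hx => ?_,
    Finset.sum_union, Finset.sum_image hN.inj1, Finset.sum_image hN.inj2, ← Finset.sum_add_distrib]
  · exact Finset.sum_eq_zero h'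
  · simp only [Finset.disjoint_left, Finset.mem_image]
    rintro _ ⟨n, a, rfl⟩ ⟨n', b, e⟩
    exact hN.ne n a n' b e.symm
  · by_contra e
    simp only [Finset.coe_union, Finset.coe_image, mem_union, mem_image, not_or, not_exists,
      not_and] at e
    exact hx (h x fun n a => ⟨e.1 n a, e.2 n a⟩)

end cv

variable {ν κ : Type} [Fintype ν] [Fintype κ] {c : AC ν κ}

variable (c) in
open Classical in
/-- The curve with fewer nodes. -/
@[reducible] noncomputable def cut (q : c.X × c.X → Prop) : AC ν κ :=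
  { c with
    N := c.N.filter q
    nd := c.nd.mono (Finset.filter_subset _ _)
    sm := fun n e a => c.sm n e (Finset.mem_filter.1 a).1 }

theorem sat_cut {q : c.X × c.X → Prop} {U : Set c.X} :
    (cut c q).Sat U ↔ IsClopen U ∧ ∀ n ∈ c.N, q n → (n.1 ∈ U ↔ n.2 ∈ U) := by
  simp only [AC.sat_iff, Finset.mem_filter, and_imp]

theorem exists_cross (h : c.Conn) {U : Set c.X} (hU : IsClopen U) (h0 : U.Nonempty)
    (h1 : U ≠ univ) : ∃ n ∈ c.N, ¬(n.1 ∈ U ↔ n.2 ∈ U) := by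
  by_contra! e
  exact (h.2 U hU e).elim h0.ne_empty h1

/-- the complement of a connected part of a curve of genus zero -/
theorem degOn_compl_le (h : c.Conn) (hg : gen c.R c.N = 0) (q : c.X × c.X → Prop) (z : c.X)
    (h1 : (cut c q).cmp z ≠ univ) : degOn (omega c.R c.N ∅) ((cut c q).cmp z)ᶜ ≤ -1 := by
  classical
  have hT := sat_cut.1 (AC.sat_cmp (c := cut c q) z)
  obtain ⟨n, a, b⟩ := exists_cross h hT.1 ⟨z, AC.mem_cmp_self (c := cut c q) z⟩ h1
  obtain ⟨g, e⟩ := AC.degOn_omega_cmp (c := cut c q) z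
  suffices ∀ T : Set c.X, IsClopen T → ¬(n.1 ∈ T ↔ n.2 ∈ T) → ∀ N' ⊆ c.N, n ∉ N' →
      degOn (omega c.R N' ∅) T = 2 * g - 2 → degOn (omega c.R c.N ∅) Tᶜ ≤ -1 from
    this _ hT.1 b _ (Finset.filter_subset _ _) (fun k => b (hT.2 n a (Finset.mem_filter.1 k).2)) e
  intro T hU b' N' k1 k2 e
  have d := degOn_add_compl (L := omega c.R c.N ∅) hU
  rw [deg_omega, hg, degOn_omega] at d
  rw [degOn_omega] at e
  have f := Finset.sum_le_sum_of_subset_of_nonneg (Finset.insert_subset a k1)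
    (f := fun n => degOn (c.R.pt n.1) T + degOn (c.R.pt n.2) T)
    fun n _ _ => by simp only [degOn_pt hU]; positivity
  rw [Finset.sum_insert k2] at f
  have k : degOn (c.R.pt n.1) T + degOn (c.R.pt n.2) T = 1 := by
    simp only [degOn_pt hU]
    split_ifs with k1 k2 k2
    exacts [(b' (iff_of_true k1 k2)).elim, rfl, rfl, (b' (iff_of_false k1 k2)).elim]
  simp only [Finset.sum_empty, Finset.card_empty] at d e
  omega

end Bdy

variable {Λ R J K : Type} [Fintype Λ] [Fintype R] [Fintype J] [Fintype K] [DecidableEq R]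
  [DecidableEq J] {F : Fam Empty Λ R J K} {l : Λ → ℂ} {b : J} {ρ : ℕ} {I : Fin (ρ + 1) → J}
  {φ χ : R → ℤ} {K₀ : RD R} {μ α : ℕ} {m : AM Λ R J N2 (Fin 0)}

theorem Bdy.cases (n : Ch.Mk N2 (Fin 0)) : n = pA ∨ n = pB := by
  rcases n with (n | n) | ⟨q, _⟩
  exacts [.inl (by rw [Subsingleton.elim n 0]), .inr (by rw [Subsingleton.elim n 0]), q.elim0]

/-- a contracted part with at most one marked point is unstable -/
theorem Bdy.unstable (h : F.Cap l b I φ χ K₀) (hm : F.Ext b I φ μ α m) (q : m.X × m.X → Prop)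
    (n : Ch.Mk N2 (Fin 0))
    (h0 : degOn (bz m.L (F.w b)) ((Bdy.cut m.toAC q).cmp (m.p n))ᶜ = 0) :
    (Bdy.cut m.toAC q).cmp (m.p n) = univ := by
  classical
  by_contra e
  have hT := (AC.sat_cmp (c := Bdy.cut m.toAC q) (m.p n)).1.compl
  have h1 := Bdy.degOn_compl_le hm.conn hm.typ.1 q _ e
  have h2 := hm.stab _ hT (nonempty_compl.2 e)
  rw [degOn_mul, h.degOn_bz hm.sol hm.typ (by rw [dotProduct_smul, h.χφ, smul_zero]) _ hT, h0,
    AC.degOn_ω_eq (c := m.toAC) hT] at h2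
  refine (h2.trans (add_le_add (add_le_add h1 (Nat.cast_le_one.2 (Finset.card_le_one.2
    fun a k1 a' k2 => ?_))) (zero_mul _).le)).not_gt (by simp)
  have k3 : ∀ a, m.p a ∈ ((Bdy.cut m.toAC q).cmp (m.p n))ᶜ → a ≠ n := fun a k f =>
    k (f ▸ AC.mem_cmp_self (c := Bdy.cut m.toAC q) _)
  have k4 := k3 a (by simpa using k1)
  have k5 := k3 a' (by simpa using k2)
  rcases Bdy.cases a with rfl | rfl <;> rcases Bdy.cases a' with rfl | rfl <;>
    rcases Bdy.cases n with rfl | rfl <;> first | rfl | exact (k4 rfl).elim | exact (k5 rfl).elim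

theorem Fam.Cap.bdy (h : F.Cap l b I φ χ K₀) (hμ : 0 < μ) (hα : α ≤ ρ) (hm : F.Ext b I φ μ α m)
    (hb : m.Bal (F.w b) b (Sum.elim (uμ μ) 0)) : m.N = ∅ ∧ ConnectedSpace m.X ∧
      m.Main F (fun n => uμ μ n • Pi.single b 1) ∧ ∀ a ≠ Fin.last ρ, m.y (I a) = 0 := by
  classical
  have _ := hα
  obtain ⟨w, w1, w2, w3, w4, w5⟩ := hb
  have h0 : χ ⬝ᵥ μ • φ = 0 := by rw [dotProduct_smul, h.χφ, smul_zero]
  have sec := fun j => (hm.sol.2.1 j).1
  have e1 : ∀ a U, IsClopen U → degOn (bz m.L (F.w (I a))) U = degOn (bz m.L (F.w b)) U :=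
    fun a U hU => by rw [h.degOn_bz hm.sol hm.typ h0 _ hU, h.wI, mul_one]
  have e2 : ∀ U, IsClopen U → 0 ≤ degOn (bz m.L (F.w b)) U := fun U =>
    h.degOn_nonneg hm.sol hm.typ h0
  have e3 : deg (bz m.L (F.w b)) = μ := by
    simpa [deg_bz, hm.typ.2, dotProduct] using (dotProduct_smul (μ : ℤ) (F.w b) φ).trans
      (by rw [h.wb, smul_eq_mul, mul_one])
  have nz : ∀ x, (∀ a, m.y (I a) x = 0) → m.y b x ≠ 0 := fun x e =>
    (h.nz _ (hm.sol.2.2 x)).resolve_right fun ⟨a, f⟩ => f (e a)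
  have w6 : ∀ x, m.y b x ≠ 0 → w x = 0 := fun x e => by
    have := (LB.ord_eq_zero (sec b x)).2 e
    obtain ⟨k, k1, k2⟩ := w5 x (by simp [this])
    rw [k2, show k = 0 by simpa [this] using k1.symm, Nat.cast_zero]
  have wB : w (m.p pB) = μ := w1 pB
  have hA : ∃ a, m.p pA ∈ Gen (m.y (I a)) := by
    by_contra! hA
    let G : Set m.X := ⋃ a, Gen (m.y (I a))
    have g1 : IsClopen G := isClopen_iUnion_of_finite fun a => isClopen_gen (sec _)
    have g2 : ∀ x ∉ G, ∀ a, m.y (I a) x = 0 := fun x e a =>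
      eq_zero_of_gen (sec _) fun f => e (mem_iUnion.2 ⟨a, f⟩)
    have g3 : m.p pB ∈ G := by_contra fun e => by
      have := w6 _ (nz _ (g2 _ e))
      omega
    have g4 : m.p pA ∉ G := by simpa [G] using hA
    let c := Bdy.cut m.toAC fun n => n.1 ∈ G ∧ n.2 ∈ G
    have g5 : c.Sat G := Bdy.sat_cut.2 ⟨g1, fun n _ e => iff_of_true e.1 e.2⟩
    have g6 := g5.inter (AC.sat_cmp (c := c) (m.p pB)).compl
    have g7 : c.cmp (m.p pB) = G := (g5.cmp_subset g3).antisymm (sdiff_eq_empty.1 (by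
      by_contra e
      obtain ⟨n, k1, k2⟩ := Bdy.exists_cross hm.conn g6.1 (nonempty_iff_ne_empty.2 e)
        fun f => g4 (f.ge (mem_univ _)).1
      have k3 : ∀ n ∈ m.N, ¬(n.1 ∈ G ∩ (c.cmp (m.p pB))ᶜ ↔ n.2 ∈ G ∩ (c.cmp (m.p pB))ᶜ) →
          n.1 ∉ G ∨ n.2 ∉ G := fun n a d => not_and_or.1 fun f => d ((Bdy.sat_cut.1 g6).2 n a f)
      obtain ⟨x, k4, k5⟩ : ∃ x ∈ G ∩ (c.cmp (m.p pB))ᶜ, ∀ a, m.y (I a) x = 0 := by
        rcases k3 n k1 k2 with f | f
        · exact ⟨n.2, by_contra fun d => k2 (iff_of_false (fun d => f d.1) d),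
            fun a => ((hm.sol.2.1 _).2 n k1).symm.trans (g2 _ f a)⟩
        · exact ⟨n.1, by_contra fun d => k2 (iff_of_false d fun d => f d.1),
            fun a => ((hm.sol.2.1 _).2 n k1).trans (g2 _ f a)⟩
      obtain ⟨a, k6⟩ := mem_iUnion.1 k4.1
      have k7 := isClopen_gen (sec (I a))
      have k8 := card_le_degOn (g6.1.inter k7) (fun x _ => sec (I a) x) inter_subset_right
        (T := {x}) (by simpa using ⟨⟨k4, k6⟩, k5 a⟩)
      have k9 := degOn_inter_add_diff (L := bz m.L (F.w b)) g6.1 k7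
      have k10 := e2 _ (g6.1.diff k7)
      rw [w4 _ g6.1, finsum_mem_def, Bdy.finsum_eq_zero m.nd (fun y d => ?_) fun n d => ?_] at k9
      · rw [e1 _ _ (g6.1.inter k7), Finset.card_singleton] at k8
        omega
      · refine indicator_apply_eq_zero.2 fun f => w2 y d fun k e => ?_
        rcases Bdy.cases k with rfl | rfl
        exacts [g4 (e ▸ f.1), f.2 (e ▸ AC.mem_cmp_self (c := c) _)]
      · by_cases f : n.1 ∈ G ∩ (c.cmp (m.p pB))ᶜ ↔ n.2 ∈ G ∩ (c.cmp (m.p pB))ᶜ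
        · simp only [indicator, f, w3 n d]
          split_ifs <;> simp
        · have k11 : w n.1 = 0 ∧ w n.2 = 0 := by
            have := w3 n d
            rcases k3 n d f with f | f <;> have := w6 _ (nz _ (g2 _ f)) <;> omega
          simp [indicator, k11]))
    exact g4 (g7 ▸ Bdy.unstable h hm _ pB (g7 ▸ degOn_of_ne (fun x _ => sec b x)
      fun x e => nz x (g2 x e)) ▸ mem_univ _)
  obtain ⟨a, hA⟩ := hA
  let c := Bdy.cut m.toAC fun _ => False
  have c1 : ∀ U, IsClopen U → m.p pA ∈ U → c.cmp (m.p pA) ⊆ U := fun U e =>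
    AC.Sat.cmp_subset (c := c) (Bdy.sat_cut.2 ⟨e, fun _ _ => False.elim⟩)
  have c2 := (AC.sat_cmp (c := c) (m.p pA)).1
  have c3 : c.cmp (m.p pA) = univ := Bdy.unstable h hm _ pA (by
    have k1 := Bdy.sum_le_degOn c2 (sec (I a)) (c1 _ (isClopen_gen (sec _)) hA) (T := {m.p pA})
      (by simpa using AC.mem_cmp_self (c := c) _) (k := fun _ => μ) (by simpa using hm.ord a)
    have k2 := degOn_add_compl (L := bz m.L (F.w b)) c2
    have k3 := e2 _ c2.compl
    rw [e1 _ _ c2, Finset.sum_singleton] at k1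
    exact le_antisymm (by linarith) k3)
  have c4 : ∀ U : Set m.X, IsClopen U → U = ∅ ∨ U = univ := fun U e => by
    by_cases f : m.p pA ∈ U
    · exact .inr (eq_univ_of_univ_subset (c3 ▸ c1 U e f))
    · exact .inl (compl_univ_iff.1 (eq_univ_of_univ_subset (c3 ▸ c1 _ e.compl f)))
  have c5 : m.N = ∅ := by
    have k1 := Cv.Conn.gen_nonneg (N := ∅) m.R ⟨hm.conn.1, fun U e _ => c4 U e⟩
    have k2 := hm.typ.1
    simp only [gen, Finset.card_empty] at k1 k2
    exact Finset.card_eq_zero.1 (by omega)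
  have c6 : ∀ j x, m.y j x ≠ 0 → Gen (m.y j) = univ := fun j x e =>
    (c4 _ (isClopen_gen (sec j))).resolve_left (Nonempty.ne_empty ⟨x, (sec j x).mem_gen e⟩)
  have c7 : ∀ x, ∃ k : ℕ, (bz m.L (F.w b)).ord (m.y b) x = k ∧ w x = k := fun x =>
    w5 x ((sec b x).ord_ne_top.2 (c6 b _ (nz (m.p pA) fun a => by_contra fun e => by
      simpa [(LB.ord_eq_zero (sec _ _)).2 e, hμ.ne'] using hm.ord a) ▸ mem_univ x))
  refine ⟨c5, connectedSpace_iff_clopen.2 ⟨hm.conn.1, c4⟩, ⟨fun _ _ q => q.elim0, fun j j1 j2 => ?_⟩,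
    fun a e => funext fun x => by_contra fun f => ?_⟩
  · obtain rfl := (h.base j).1 ⟨j1, j2⟩
    refine ⟨fun n => ?_, fun z e => (LB.ord_eq_zero (sec j z)).1 ?_⟩
    · obtain ⟨k, k1, k2⟩ := c7 (m.p (.inl n))
      rw [w1] at k2
      simpa [k1] using k2.symm
    · obtain ⟨k, k1, k2⟩ := c7 z
      rw [w2 z (by simp [Cv.Sm, c5]) fun n f => by
        rcases Bdy.cases n with rfl | rfl <;> exact e _ f.symm] at k2
      simpa [k1] using k2.symm
  · have k1 := fun T k => Bdy.sum_le_degOn isClopen_univ (sec (I a)) (c6 _ x f).ge (T := T)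
      (k := k) fun _ _ => trivial
    simp only [e1 _ _ isClopen_univ, degOn_univ, e3] at k1
    rcases le_or_gt α a with d | d
    · simpa using k1 {m.p pA} (fun _ => μ + 1) (by simpa using hm.ord' a d e)
    · have k2 : m.p pA ≠ m.p pB := m.inj.ne (by simp)
      simpa [k2, k2.symm] using k1 {m.p pA, m.p pB} (fun y => if y = m.p pA then μ else 1) (by
        simpa [k2.symm, hm.ord a, Order.one_le_iff_ne_zero, LB.ord_eq_zero (sec _ _)] using
          hm.van a d)

end Vale.Agent.P269
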