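import Vale.Agent.P287Q.G.G3.ClA
import Vale.Agent.P287Q.G.G3.Pt
import Vale.Agent.P287Q.G.Bas.Lv
import Vale.Agent.P287Q.G.Qrr.Fac
import Vale.Agent.P287Q.G.Prj.TgtM
import Vale.Agent.P269.LG.TopA

/-!
# The two point invariants of a cap as integrals
-/

set_option linter.unusedSectionVars false

namespace Vale.Agent.P269.Fam

open Set Function Topology Filter P291Z

variable {Λ R J K : Type} [Fintype Λ] [Fintype R] [Fintype J] [Fintype K] [DecidableEq R]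
  [DecidableEq J] {F : Fam Empty Λ R J K} {l : Λ → ℂ} {b : J} {ρ : ℕ} {I : Fin (ρ + 1) → J}
  {φ χ : R → ℤ} {K₀ : RD R} {k μ m n₀ D : ℕ}

namespace Cap

variable (h : F.Cap l b I φ χ K₀) (hk : F.Big k)
include h hk

theorem gz2 (hD : F.BigD k D) (μ : ℕ) : Ch.GZ F ℓs (F.Z2 k D b φ μ) :=
  h.nice.gz (Fin 0) hk hD 0 (μ • φ) (uμ μ)

theorem clo2 (μ : ℕ) : ∀ᶠ D in atTop, IsClopen (F.sel (fun m => m.Conn) : Set (F.M2 k D b φ μ)) :=
  ((St.selC F k 1 univ 1 h.nice.toGood hk (subset_univ _) (one_mem _)).2.sel _ _ _ _ _).2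

/-- on connected curves both marked points have the same image in the base -/
theorem ev_base (hD : F.BigD k D) {Z : Type} [TopologicalSpace Z] {π : C(F.X F.cone, Z)}
    (hπ : ∀ z z' : F.cone, (∀ j, F.w j ⬝ᵥ φ = 0 → z.1.2 j = z'.1.2 j) →
      π (Quo.mk F.actT z) = π (Quo.mk F.actT z')) (n n' : Ch.Mk N2 (Fin 0))
    {y : F.M2 k D b φ μ} (hy : y ∈ F.sel fun m => m.Conn) :
    π (((h.gz2 hk hD μ).eqh_vl n ((h.gz2 hk hD μ).vl_cone n)).toEqv.qm y) =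
      π (((h.gz2 hk hD μ).eqh_vl n' ((h.gz2 hk hD μ).vl_cone n')).toEqv.qm y) := by
  obtain ⟨m, r, c⟩ := hy
  have a := (Quo.out y).2.1
  have s := (r.mem_solF a.1.2.1 h.nice.toInv chart_wd').1 a
  obtain ⟨t, t0, e⟩ := r.vl (W := F.toWt) a.1.2.1 chart_wd'
  have u : ∀ {t : R → ℂ}, IsUnit t → IsUnit ((1, t) : (Empty → ℂ) × (R → ℂ)) :=
    fun a => Prod.isUnit_iff.2 ⟨isUnit_one, a⟩
  have k : ∀ n, ((h.gz2 hk hD μ).eqh_vl n ((h.gz2 hk hD μ).vl_cone n)).toEqv.qm y =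
      Quo.mk F.actT ⟨_, s.2.2 (m.p n)⟩ := fun n =>
    (Tq.Eqv.qm_out _ y).symm.trans (Quot.sound ⟨_, u (t0 _), e n⟩).symm
  obtain ⟨τ, τ0, d⟩ := h.gauge s (rep_typ r a.1.2.1) (by rw [dotProduct_smul, h.χφ, smul_zero]) c
    (m.p n) (m.p n')
  rw [k, k, ← Tq.mk_act (u τ0) _ (h.nice.toInv.cone_act (u τ0) (s.2.2 _))]
  exact hπ _ _ d

variable (hW : St.Well) (hμ : 0 < μ)
include hW hμ

theorem T2_eq (m : ℕ) (c a) : ∀ᶠ D in atTop, F.T2 k b φ μ m c a =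
    Loc.intg (F.vir (Fin 0) k D 0 (μ • φ) (u2 b μ)) (hcls (ind (F.sel fun m => m.Conn)) *
      (F.cl (F.Z2 k D b φ μ) (.psi pA) ^ m * F.cl (F.Z2 k D b φ μ) (.ev pA F.cone c) *
        F.cl (F.Z2 k D b φ μ) (.ev pB (F.dvs (Pi.single b 1)) a))) := by
  have u : ord₃ (fun _ : Fin 1 => (μ - 1, a)) = uμ μ :=
    funext (Sum.rec (fun _ => rfl) fun _ => Nat.sub_add_cancel hμ)
  have v := iv_fsC (v₁ := fun _ : Fin 1 => (m, c)) (v₂ := fun q : Fin 0 => q.elim0)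
    (v₃ := fun _ : Fin 1 => (μ - 1, a)) h.nice h.cp hk (St.selC F k 1 univ 1 h.nice.toGood hk
      (subset_univ _) (one_mem _)).2 Subset.rfl Subset.rfl 0 (μ • φ)
  have e := F.cor_ofFn k F.exC (Pi.single b 1) _ _ (μ • φ) (-1) (fun _ : Fin 1 => (m, c))
    (fun q : Fin 0 => q.elim0) fun _ : Fin 1 => (μ - 1, a)
  rw [corF, u, Nat.cast_zero, sub_zero, neg_add_cancel] at e
  rw [u] at v
  filter_upwards [v.well hW, v.lvl] with D d f
  have := h.compact_mod (μ := μ) hk f.big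
  refine e.trans (d.trans ((intg_sel f.gz _ f.clo f.fac).trans (congrArg _ (congrArg _ ?_))))
  simp only [Wt.fsC, List.ofFn_succ, List.ofFn_zero, List.map_cons, List.map_append,
    List.map_replicate, List.map_nil, List.prod_cons, List.prod_append, List.flatten_cons,
    List.prod_replicate, List.prod_nil, mul_one, List.flatten_nil, List.append_nil]
  exact (congrArg₂ (· * ·) cl_tw_one ((congrArg (· * _) ((f.gz.cl_par
    (fun _ _ => mem_univ _) 1).trans (map_one _))).trans (one_mul _))).trans (one_mul _)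

theorem T2_map (m : ℕ) (c a) : ∀ᶠ D in atTop, ∀ hD : F.BigD k D, F.T2 k b φ μ m c a =
    Loc.intg (F.vir (Fin 0) k D 0 (μ • φ) (u2 b μ)) (hcls (ind (F.sel fun m => m.Conn)) *
      (F.cl (F.Z2 k D b φ μ) (.psi pA) ^ m *
        H.mapA ((h.gz2 hk hD μ).eqh_vl pA ((h.gz2 hk hD μ).vl_cone pA)).toEqv.qm c *
        H.mapA ((h.gz2 hk hD μ).eqh_vl pB (h.vl_pB hk hD hμ)).toEqv.qm a)) :=
  (h.T2_eq hk hW hμ m c a).mono fun _ e hD => by
    rwa [(h.gz2 hk hD μ).cl_ev _ ((h.gz2 hk hD μ).vl_cone pA),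
      (h.gz2 hk hD μ).cl_ev _ (h.vl_pB hk hD hμ)] at e

theorem exists_T2 (m : ℕ) : ∃ T : H (F.X F.cone) →ₗ[ℂ] H (F.X (F.dvs (Pi.single b 1))) →ₗ[ℂ] ℂ,
    ∀ c a, T c a = F.T2 k b φ μ m c a := by
  have e := fun c₁ c₂ c₃ a₁ a₂ a₃ => ((F.eventually_bigD k).and ((h.T2_map hk hW hμ m c₁ a₁).and
    ((h.T2_map hk hW hμ m c₂ a₂).and (h.T2_map hk hW hμ m c₃ a₃)))).exists
  refine ⟨LinearMap.mk₂ ℂ (F.T2 k b φ μ m) (fun c c' a => ?_) (fun t c a => ?_) (fun c a a' => ?_)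
    fun t c a => ?_, fun _ _ => rfl⟩
  · obtain ⟨_, d, e₁, e₂, e₃⟩ := e (c + c') c c' a a a
    rw [e₁ d, e₂ d, e₃ d, map_add, mul_add, add_mul, mul_add, map_add]
  · obtain ⟨_, d, e₁, e₂, -⟩ := e (t • c) c c a a a
    rw [e₁ d, e₂ d, map_smul, mul_smul_comm, smul_mul_assoc, mul_smul_comm, map_smul]
  · obtain ⟨_, d, e₁, e₂, e₃⟩ := e c c c (a + a') a a'
    rw [e₁ d, e₂ d, e₃ d, map_add, mul_add, mul_add, map_add]
  · obtain ⟨_, d, e₁, e₂, -⟩ := e c c c (t • a) a a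
    rw [e₁ d, e₂ d, map_smul, mul_smul_comm, mul_smul_comm, map_smul]

theorem T2_deg (hn : Tq.Dim F.actT F.cone n₀) {p q : ℤ} {c a} (hc : H.IsDeg p c) (ha : H.IsDeg q a)
    (e : 2 * m + p + q ≠ 2 * (n₀ - 1 + (ρ + 1) * μ)) : F.T2 k b φ μ m c a = 0 := by
  obtain ⟨D, hD, f⟩ := ((F.eventually_bigD k).and (h.T2_map hk hW hμ m c a)).exists
  obtain ⟨_, _, -, -, v, -⟩ := h.pack hk hn hD μ
  have z := h.gz2 hk hD μ
  have := z.nice
  have d : H.IsDeg (2 * (m * 1)) (F.cl (F.Z2 k D b φ μ) (.psi pA) ^ m) := Ch.Hev.mem_deg.1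
    (Ch.Hev.pow_deg (a := ⟨_, z.cl_psi_mem pA⟩) (Ch.Hev.mem_deg.2 (hcls_isDeg (z.psi_deg pA))) m)
  rw [f hD]
  exact Loc.intg_deg v ((hcls_isDeg (k := 0) (by rw [ind_eq_fn]; exact isDeg_fn _)).mul
    ((d.mul (hc.map _)).mul (ha.map _))) (by rwa [zero_add, mul_one])

/-- classes of the base can be moved from one marked point to the other -/
theorem T2_move {Z : Type} [TopologicalSpace Z] {π : C(F.X F.cone, Z)}
    (hπ : ∀ z z' : F.cone, (∀ j, F.w j ⬝ᵥ φ = 0 → z.1.2 j = z'.1.2 j) →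
      π (Quo.mk F.actT z) = π (Quo.mk F.actT z')) (e : F.dvs (Pi.single b 1) ⊆ F.cone) (γ : H Z)
    (c a) : F.T2 k b φ μ m c (F.rs e (H.map π γ) * a) = F.T2 k b φ μ m (c * H.map π γ) a := by
  obtain ⟨D, hD, u, e₁, e₂⟩ := ((F.eventually_bigD k).and ((h.clo2 hk μ).and
    ((h.T2_map hk hW hμ m c (F.rs e (H.map π γ) * a)).and
      (h.T2_map hk hW hμ m (c * H.map π γ) a)))).exists
  have z := h.gz2 hk hD μ
  have i := Ch.Hev.commute (Ch.mem_Hev (k := 0) (hcls_isDeg (isDeg_fn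
    ((F.sel (fun m => m.Conn) : Set (F.M2 k D b φ μ)).indicator 1))))
  have t := LG.TopP.ind_mul_map u (f := π.comp (z.eqh_vl pB (z.vl_cone pB)).toEqv.qm)
    (g := π.comp (z.eqh_vl pA (z.vl_cone pA)).toEqv.qm) (fun y hy => h.ev_base hk hD hπ _ _ hy) γ
  have w : ∀ {i x y z p q : H (F.M2 k D b φ μ)}, (∀ c, i * c = c * i) → i * p = i * q →
      i * (x * y * (p * z)) = i * (x * (y * q) * z) := fun {i x y z p q} a b => by
    rw [← mul_assoc i, a, mul_assoc _ i, ← mul_assoc i, b, ← mul_assoc x, mul_assoc (x * y) q,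
      ← mul_assoc i, a (x * y), mul_assoc _ i, mul_assoc i]
  rw [e₁ hD, e₂ hD, ind_eq_fn]
  refine congrArg _ ((congrArg (_ * ·) (congrArg (_ * ·) (map_mul _ _ _))).trans ((w i ?_).trans
    (congrArg (_ * ·) (congrArg (· * _) (congrArg (_ * ·) (map_mul _ _ _).symm)))))
  rw [H.mapA_apply, H.mapA_apply, Wt.rs_eq, H.map_map, H.map_map, H.map_map, ← t]
  exact congrArg (_ * H.map · γ) (ContinuousMap.ext fun z => Quot.inductionOn z fun _ => rfl)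

end Cap

end Vale.Agent.P269.Fam
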