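import Vale.Agent.P287Q.G.G3.ClD
import Vale.Agent.P287Q.G.Bas.Lv
import Vale.Agent.P287Q.G.Prj.TgtM

/-!
# The moduli space of the two point invariants of a cap
-/

set_option linter.unusedSectionVars false

namespace Vale.Agent.P269.Fam

open Set Function Topology Filter P291Z

variable {Λ R J K : Type} [Fintype Λ] [Fintype R] [Fintype J] [Fintype K] [DecidableEq R]
  [DecidableEq J] {F : Fam Empty Λ R J K} {l : Λ → ℂ} {b : J} {ρ : ℕ} {I : Fin (ρ + 1) → J}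
  {φ χ : R → ℤ} {K₀ : RD R} {k μ m n₀ D : ℕ}

omit [DecidableEq R] [DecidableEq J] in
theorem sm_of_single (h : F.B = {l}) : F.Sm 0 := fun u =>
  haveI : Subsingleton F.B := h ▸ inferInstance
  ⟨fun _ => u, .of_map_nhds (.of_forall fun _ => continuousAt_const)
    (.of_forall fun _ => continuous_subtype_val.continuousAt) analyticAt_const
    (injective_of_subsingleton _) fun _ a => mem_of_superset univ_mem fun y _ =>
      Subsingleton.elim u y ▸ (mem_of_mem_nhds a :), rfl⟩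

namespace Cap

variable (h : F.Cap l b I φ χ K₀)
include h

theorem sm : F.Sm 0 := sm_of_single h.B

/-- `b` is the only free base field -/
theorem sh : ∃ n ψ, F.Sh (Pi.single b 1) (fun _ : Fin 1 => b) n ψ := by
  obtain ⟨N, φ', n, ψ, s⟩ := h.nice.sh
  have a : ∀ i, φ' i = b := fun i => (h.base _).1 ⟨(s.free i).1, (s.free i).2.1⟩
  have c := (h.base b).2 rfl
  obtain rfl : N = 1 := by
    refine le_antisymm ?_ (Nat.pos_of_ne_zero ?_)
    · rw [← Fintype.card_fin N, Fintype.card_le_one_iff]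
      exact fun i j => s.li.injective (by simp only [a])
    · rintro rfl
      simpa using s.ord b c.1 c.2
  exact ⟨n, ψ, funext a ▸ s⟩

/-- the dimension of a cap -/
theorem dim_eq (hn : Tq.Dim F.actT F.cone n₀) (hz : F.cone.Nonempty) :
    (n₀ + Fintype.card R : ℤ) = K₀.n + 1 := by
  obtain ⟨z, hz⟩ := hz
  obtain ⟨n, ψ, s⟩ := h.sh
  obtain ⟨m, h1, h2⟩ := s.mfd h.nice.toInv h.sm hz
  obtain ⟨m', h3, h4⟩ := h.reg.mfd h.nice.toInv hz h2
  have h5 := h4.unique (hn z hz)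
  have h6 : Nat.card (F.movᶜ \ range fun _ : Fin 1 => b : Set J) + 1 + F.mov.ncard =
      Fintype.card J := by
    rw [range_const, Nat.card_coe_set_eq, ncard_sdiff_singleton_add_one ((h.base b).2 rfl).1,
      add_comm, ncard_add_ncard_compl, Nat.card_eq_fintype_card]
  simp only [Module.finrank_prod, Module.finrank_fintype_fun_eq_card, Fintype.card_empty] at h5
  omega

theorem vdim_eq (hn : Tq.Dim F.actT F.cone n₀) (hz : F.cone.Nonempty) (μ : ℕ) :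
    F.vdim N2 (Fin 0) K₀ 0 (Fintype.card (Fin 1)) 0 (μ • φ) = n₀ - 1 + (ρ + 1) * μ := by
  have a := h.dim_eq hn hz
  have c := h.c1
  have e : ∀ w : R → ℤ, ∑ r, w r * (μ • φ) r = μ * (w ⬝ᵥ φ) := fun w => by
    rw [← nsmul_eq_mul, ← dotProduct_smul]
    rfl
  simp only [vdim, e, sub_zero]
  simp only [Fintype.card_sum, Fintype.card_fin, Fintype.card_empty]
  push_cast
  linear_combination μ * c - a

variable (hk : F.Big k)
include hk

theorem compact_mod (hD : F.BigD k D) : CompactSpace (F.M2 k D b φ μ) :=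
  Cpt.compactSpace_mod h.nice.toGood hk hD rfl (T := {l}) isCompact_singleton h.B.ge
    (fun _ a => ⟨1, isUnit_one, by rw [F.actL_one]; exact h.B.le a⟩) _

theorem vl_pB (hD : F.BigD k D) (hμ : 0 < μ) :
    ∀ x ∈ F.Z2 k D b φ μ, Ch.vl x pB ∈ F.dvs (Pi.single b 1) :=
  h.nice.at_of_ok (f := .ev pB _ 0) (u := uμ μ) hk hD fun _ a =>
    ⟨a.1, fun j hj => a.2 _ rfl j (mul_ne_zero hμ.ne' hj)⟩

/-- the dimensions -/
theorem pack (hn : Tq.Dim F.actT F.cone n₀) (hD : F.BigD k D) (μ : ℕ) :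
    ∃ (U : Set ((F.c2 k D φ μ).WF N2 (Fin 0) Λ)) (n : ℕ),
      (F.c2 k D φ μ).Ok F (F.tdeg (F.c2 k D φ μ)) K₀ ℓs 0 U ∧
      Ch.Vm F (F.tdeg (F.c2 k D φ μ)) (u2 b μ) U n ∧
      BM.IsDeg (2 * (n₀ - 1 + (ρ + 1) * μ)) (F.vir (Fin 0) k D 0 (μ • φ) (u2 b μ)) ∧
      (0 < μ → ((F.c2 k D φ μ).solF N2 (Fin 0) F ∩ (F.c2 k D φ μ).main (Fin 0) F (u2 b μ)).Nonempty →
        (n : ℤ) = n₀ - 1 + (ρ + 1) * μ + (F.c2 k D φ μ).rk F ℓs K₀) := by
  obtain ⟨n, ψ, s⟩ := h.sh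
  obtain ⟨U, a⟩ := h.nice.toGood.ok' N2 (Fin 0) h.reg h.sm hk hD 0 (μ • φ)
  refine ⟨U, _, a, a.vd_sh h.nice.pol s (uμ μ), ?_, fun _ ⟨x, c, d⟩ => ?_⟩
  · rcases F.cone.eq_empty_or_nonempty with e | e
    · have : IsEmpty (F.Mod (Fin 0) k D 0 (μ • φ) (u2 b μ)) :=
        ⟨fun z => (e.le (Ch.vl_mem z.out.2.1 pA)).elim⟩
      exact Orb.BM_eq_of_isEmpty 0 (F.vir (Fin 0) k D 0 (μ • φ) (u2 b μ)) ▸ Orb.isDeg_zero' _
    · rw [← h.vdim_eq hn e]
      exact h.nice.toGood.vir_deg' (Fin 0) h.reg h.sm h.nice.pol s hk hD 0 (μ • φ) (uμ μ)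
  · obtain ⟨e, f⟩ := a.num.mfd_main a.sm (a.lat.gr a.inv s (uμ μ)) d
    rw [Nat.cast_sub (a.pr.finrank_le (Ch.lev_main a.inv _) f (a.pr.sol c)), e,
      ← h.vdim_eq hn ⟨_, Ch.vl_mem c pA⟩, ← chart_vdim (k := k) (D := D),
      Ch.vdim_eq a.cuts.ne c.1.2.1]
    ring

end Cap

end Vale.Agent.P269.Fam
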