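import Vale.Agent.P287Q.G.Map.Psi
import Vale.Agent.P269.Base.MerD
import Vale.Agent.P287Q.G.Prj.Tgt

/-!
# Jets of the fields at a marked point: definitions
-/

namespace Vale.Agent.P269.Ch

open Set Base

variable {S Λ R J K ι ν ν' κ : Type} [Fintype S] [Fintype Λ] [Fintype R] [Fintype J] [Fintype K]
  [Fintype ι] [DecidableEq ι] [Fintype ν] [Fintype ν'] [Fintype κ] {ch : Ch ι J}

/-- The field `j` vanishes to order `r` at `c`. -/
def Vo (x : ch.W ν') (j : J) (c : V ch.M) (r : ℕ) : Prop :=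
  ∀ γ, IsBranch ch.o (crv x) γ → γ 0 = c → Dv r fun t => fld x (γ t) j

/-- The leading coefficient of order `r` of the field `j` at `c` in the direction `v`. -/
noncomputable def jt (x : ch.W ν') (j : J) (c v : V ch.M) (r : ℕ) : ℂ :=
  Classical.epsilon fun a => ∀ γ, IsBranch ch.o (crv x) γ → γ 0 = c → deriv γ 0 - v ∈ Psi.Nr c →
    Vz r (fun t => fld x (γ t) j) a

/-- Solutions with a generator of the tangent line at `n` where the field `j` vanishes to order `r`. -/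
def jD (F : Fam S Λ R J K) (n : Mk ν κ) (j : J) (r : ℕ) : Set (ch.WF ν κ Λ × V ch.M) :=
  {q | q.1 ∈ ch.solF ν κ F ∧ Vo q.1.2 j (q.1.2.p n) r ∧ q.2 ∈ (ch.sdψ S Λ n).B q.1 ∧
    q.2 ∉ (ch.sdψ S Λ n).N q.1}

/-- The jet as a function. -/
noncomputable def jF (n : Mk ν κ) (j : J) (r : ℕ) (q : ch.WF ν κ Λ × V ch.M) : ℂ :=
  jt q.1.2 j (q.1.2.p n) q.2 r

end Vale.Agent.P269.Ch
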