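import Vale.Agent.P287Q.G.G3.Num
import Vale.Agent.P287Q.G.G3.JetD
import Vale.Agent.P287Q.G.Bas.Defs

/-!
# The chart of the two point invariants of a cap
-/

namespace Vale.Agent.P269

open Set P291Z

namespace Fam

variable {Λ R J K : Type} [Fintype Λ] [Fintype R] [Fintype J] [Fintype K] [DecidableEq R]
  [DecidableEq J] (F : Fam Empty Λ R J K)

/-- The contact orders. -/
abbrev u2 (b : J) (μ : ℕ) : N2 → J → ℕ := fun n => uμ μ n • Pi.single b 1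

/-- The chart. -/
noncomputable abbrev c2 (k D : ℕ) (φ : R → ℤ) (μ : ℕ) : Ch (Option R) J :=
  F.sch N2 (Fin 0) k D 0 (μ • φ)

/-- The solutions. -/
abbrev Z2 (k D : ℕ) (b : J) (φ : R → ℤ) (μ : ℕ) : Set ((F.c2 k D φ μ).WF N2 (Fin 0) Λ) :=
  F.Zs (Fin 0) k D 0 (μ • φ) (u2 b μ)

/-- The conditions of maximal contact for a point of a chart. -/
structure Mx {ι : Type} [Fintype ι] [DecidableEq ι] {ch : Ch ι J} {ρ : ℕ} (I : Fin (ρ + 1) → J)
    (μ α : ℕ) (x : ch.WF N2 (Fin 0) Λ) : Prop where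
  ord : ∀ a, Ch.Vo x.2 (I a) (x.2.p pA) μ
  ord' : ∀ a : Fin (ρ + 1), α ≤ a → a ≠ Fin.last ρ → Ch.Vo x.2 (I a) (x.2.p pA) (μ + 1)
  van : ∀ a : Fin (ρ + 1), a < α → (Ch.vl x pB).2 (I a) = 0

end Fam

/-- The class of the line bundle of the values of the field `j` at the marked point `n`. -/
noncomputable def Ch.lcv {S Λ R J K ι ν κ : Type} [Fintype S] [Fintype Λ] [Fintype R] [Fintype J]
    [Fintype K] [Fintype ι] [DecidableEq ι] [Fintype ν] [Fintype κ] {ch : Ch ι J}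
    (F : Fam S Λ R J K) (ℓ : R → ι → ℤ) (Z : Set (ch.WF ν κ Λ)) (n : Ch.Mk ν κ) (j : J) :
    H (Quo (Ch.actF F.toWt) Z) :=
  Tq.lcq (Ch.actF F.toWt) Z fun s => chT (F.wt j) (F.w j) (Ch.θv ℓ n s)

end Vale.Agent.P269
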