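import Vale.Agent.P287Q.G.Gen.Num

/-!
# Caps: definitions and statements
-/

set_option linter.unusedSectionVars false

namespace Vale.Agent.P269

open P291Z Set Function Topology Filter MvPolynomial Fock

section gen

variable {S Λ R J K : Type} [Fintype S] [Fintype Λ] [Fintype R] [Fintype J] [Fintype K]

/-- The monomials of weight `c` have no common zero on the cone. -/
def Fam.Gn (F : Fam S Λ R J K) (c : R → ℤ) : Prop :=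
  ∀ z ∈ F.cone, ∃ α : J → ℕ, (∀ i, ∑ j, α j * F.w j i = c i) ∧ ∏ j, z.2 j ^ α j ≠ 0

/-- The product of the classes of the fields in `l`. -/
noncomputable def Wt.lcs (F : Wt S Λ R J) (A : Set ((Λ → ℂ) × (J → ℂ))) (l : List J) : H (F.X A) :=
  (l.map fun j => F.lc A 0 (F.w j)).prod

theorem Deg.isEv_nn {V : Type} [AddCommGroup V] [Module ℂ V] (p : Fock.Par ℂ V) (D : Deg.Dv) :
    IsEv ((p.fs ℕ).prod (D.p.fs ℕ)) (Deg.pR p D) ((LinearMap.inl ℂ _ _).prodMap .id) := fun _ =>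
  Prod.ext (Prod.ext rfl rfl) rfl

/-- The relative invariants without nodes. -/
noncomputable def Fam.serR0 (F : Fam S Λ R J K) [DecidableEq R] (k : ℕ) (e : F.Ex)
    {A A' : Set ((Λ → ℂ) × (J → ℂ))} {V : Type} [AddCommGroup V] [Module ℂ V] (p : Fock.Par ℂ V)
    (i : V →ₗ[ℂ] H (F.X A)) (δ : J → ℕ) (D : Deg.Dv) (i' : D.H →ₗ[ℂ] H (F.X A')) :
    Deg.Ser (R → ℤ) ((p.fs ℕ).prod (D.p.fs ℕ)) := fun d j =>
  F.serR k e p i δ D i' d j ∘ₗ (Fock.map _ (Deg.isEv_nn p D)).toLinearMap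

/-- The field `b` is a limit of sections with divisor `∑ u n • p n`. -/
def AM.Bal {ν κ : Type} (m : AM Λ R J ν κ) (c : R → ℤ) (b : J) (u : Ch.Mk ν κ → ℕ) : Prop :=
  ∃ w : m.X → ℤ, (∀ n, w (m.p n) = u n) ∧ (∀ x, Cv.Sm m.N x → (∀ n, m.p n ≠ x) → w x = 0) ∧
    (∀ e ∈ m.N, w e.2 = -w e.1) ∧
    (∀ U, IsClopen U → Cv.degOn (Cv.bz m.L c) U = ∑ᶠ x ∈ U, w x) ∧
    ∀ x, (Cv.bz m.L c).ord (m.y b) x ≠ ⊤ → ∃ n : ℕ, (Cv.bz m.L c).ord (m.y b) x = n ∧ w x = n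

end gen

variable {Λ R J K : Type} [Fintype Λ] [Fintype R] [Fintype J] [Fintype K] [DecidableEq R]
  [DecidableEq J]

namespace Fam

variable (F : Fam Empty Λ R J K)

open Classical in
/-- A cap: a bundle of projective spaces with fibre coordinates `b`, `I a` and divisor `b = 0`;
`φ` is the class of a line in a fibre and `χ` is ample on the base. -/
structure Cap (l : Λ → ℂ) (b : J) {ρ : ℕ} (I : Fin (ρ + 1) → J) (φ χ : R → ℤ) (K₀ : RD R) :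
    Prop where
  nice : F.Nice (Pi.single b 1)
  B : F.B = {l}
  reg : F.Reg K₀
  base : ∀ j, j ∉ F.mov ∧ j ∉ F.zer ↔ j = b
  inj : Injective I
  mov : ∀ a, I a ∈ F.mov
  wb : F.w b ⬝ᵥ φ = 1
  wI : ∀ a, F.w (I a) ⬝ᵥ φ = 1
  χφ : χ ⬝ᵥ φ = 0
  gn : ∀ (r : R) (s : ℤ), |s| ≤ 1 → F.Gn (χ + s • (Pi.single r 1 - φ r • F.w b))
  nz : ∀ z ∈ F.cone, z.2 b ≠ 0 ∨ ∃ a, z.2 (I a) ≠ 0
  ext : ∀ z ∈ F.cone, ∀ z' ∈ F.cone, (∀ j, F.w j ⬝ᵥ φ = 0 → z.2 j = z'.2 j) → z.2 b = z'.2 b →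
    (∀ a, z.2 (I a) = z'.2 (I a)) → z = z'
  fib : ∀ z ∈ F.cone, ∃ σ : J → MvPolynomial (Option (Fin (ρ + 1))) ℂ,
    (∀ j, ∀ α ∈ (σ j).support, (∑ o, α o : ℕ) = F.w j ⬝ᵥ φ) ∧
    (∀ j, F.w j ⬝ᵥ φ = 0 → σ j = C (z.2 j)) ∧ σ b = X none ∧ (∀ a, σ (I a) = X (some a)) ∧
    ∀ v ≠ 0, (l, fun j => eval v (σ j)) ∈ F.cone
  c1 : K₀.γ ⬝ᵥ φ = ρ + 1

/-- The cohomology of a cap; `π` is the projection to the base. -/
structure CapH {ρ : ℕ} (I : Fin (ρ + 1) → J) (φ : R → ℤ) {A' : Set ((Λ → ℂ) × (J → ℂ))}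
    (h : A' ⊆ F.cone) {D : Deg.Dv} {ε : ℂ} (P : Deg.Cz D ε) (i : P.H →ₗ[ℂ] H (F.X F.cone))
    (i' : D.H →ₗ[ℂ] H (F.X A')) {Z : Type} [TopologicalSpace Z] (π : C(F.X F.cone, Z)) : Prop where
  ev : IsEv P.p (parH _) i
  nul : ∀ s, ∃ z, i (P.nul z) = F.lcs _ (List.ofFn I) * s
  inj' : Injective i'
  ev' : IsEv D.p (parH _) i'
  fib : ∀ z z' : F.cone, (∀ j, F.w j ⬝ᵥ φ = 0 → z.1.2 j = z'.1.2 j) →
    π (Quo.mk F.actT z) = π (Quo.mk F.actT z')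
  span : ∀ a, ∃ γ : Fin (ρ + 1) → H Z,
    i' a = ∑ α, F.rs h (H.map π (γ α)) * F.lcs A' ((List.ofFn I).take α)
  far : ∀ γ, F.lcs _ (List.ofFn I) * H.map π γ = 0 → F.rs h (H.map π γ) = 0

/-- Two marked points. -/
abbrev _root_.Vale.Agent.P269.N2 : Type := Fin 1 ⊕ Fin 1

/-- The free marked point. -/
abbrev _root_.Vale.Agent.P269.pA : Ch.Mk N2 (Fin 0) := .inl (.inl 0)

/-- The relative marked point. -/
abbrev _root_.Vale.Agent.P269.pB : Ch.Mk N2 (Fin 0) := .inl (.inr 0)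

/-- The contact orders. -/
def _root_.Vale.Agent.P269.uμ (μ : ℕ) : N2 → ℕ := Sum.elim 0 fun _ => μ

/-- The connected invariants of genus zero in the class `μ φ` with one descendant insertion and one
relative point of contact order `μ`. -/
noncomputable def T2 (k : ℕ) (b : J) (φ : R → ℤ) (μ m : ℕ) (c : H (F.X F.cone))
    (a : H (F.X (F.dvs (Pi.single b 1)))) : ℂ :=
  F.cor k F.exC (Pi.single b 1) _ _ (μ • φ) (-1) [(m, c)] [] [(μ - 1, a)]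

/-- The moduli space of these invariants. -/
abbrev M2 (k D : ℕ) (b : J) (φ : R → ℤ) (μ : ℕ) : Type :=
  F.Mod (Fin 0) k D 0 (μ • φ) fun n => uμ μ n • Pi.single b 1

/-- Maps with maximal contact with the far section at the free marked point. -/
structure Ext (b : J) {ρ : ℕ} (I : Fin (ρ + 1) → J) (φ : R → ℤ) (μ α : ℕ)
    (m : AM Λ R J N2 (Fin 0)) : Prop where
  sol : m.Sol F
  stab : m.Stable F.θ
  typ : m.Typ 0 (μ • φ)
  conn : m.Conn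
  ord : ∀ a, (μ : ℕ∞) ≤ (Cv.bz m.L (F.w (I a))).ord (m.y (I a)) (m.p pA)
  ord' : ∀ a : Fin (ρ + 1), α ≤ a → a ≠ Fin.last ρ →
    (μ + 1 : ℕ) ≤ (Cv.bz m.L (F.w (I a))).ord (m.y (I a)) (m.p pA)
  van : ∀ a : Fin (ρ + 1), a < α → m.y (I a) (m.p pB) = 0

end Fam

namespace St

/-- Splitting off the component of a marked point, for relative invariants. -/
def ProdR : Prop :=
  ∀ {Λ R J K : Type} [Fintype Λ] [Fintype R] [Fintype J] [Fintype K] [DecidableEq R]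
    (F : Fam Empty Λ R J K) (δ : J → ℕ) (l) (k : ℕ) {A A' : Set _} {V : Type} [AddCommGroup V]
    [Module ℂ V] (p : Fock.Par ℂ V) (i : V →ₗ[ℂ] H (F.X A)) (D : Deg.Dv)
    (i' : D.H →ₗ[ℂ] H (F.X A')), F.Nice δ → F.B = {l} → F.Big k → F.cone ⊆ A → F.dvs δ ⊆ A' →
    IsEv p (parH _) i → IsEv D.p (parH _) i' →
    ∀ d j v (x : Fock.S ((p.fs ℕ).prod (D.p.fs ℕ))),
    F.serR0 k F.ex0 p i δ D i' d j (ι _ v * x) = ∑ᶠ q : (R → ℤ) × ℤ,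
      Deg.tp (F.serR0 k F.exC p i δ D i' q.1 q.2) (F.serR0 k F.ex0 p i δ D i' (d - q.1) (j - q.2))
        (ι _ (v, 0) * Fock.map _ (Deg.isEv_diag _) x)

/-- **The invariants of a cap.** -/
def G3 : Prop :=
  ∀ {Λ R J K : Type} [Fintype Λ] [Fintype R] [Fintype J] [Fintype K] [DecidableEq R]
    [DecidableEq J] (F : Fam Empty Λ R J K) (l b) {ρ : ℕ} (I : Fin (ρ + 1) → J) (φ χ K₀) (k : ℕ)
    {A' : Set _} (h : A' ⊆ F.cone) {D : Deg.Dv} {ε : ℂ} (P : Deg.Cz D ε)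
    (i : P.H →ₗ[ℂ] H (F.X F.cone)) (i' : D.H →ₗ[ℂ] H (F.X A')) {Z : Type} [TopologicalSpace Z]
    (π : C(F.X F.cone, Z)) (g : Deg.Grd (R → ℤ)) (en : (R → ℤ) →+ ℤ) (s N : ℕ),
    F.Cap l b I φ χ K₀ → F.Big k → F.dvs (Pi.single b 1) ⊆ A' → F.CapH I φ h P i i' π → F.Grd g →
    (∀ d, en d = F.w b ⬝ᵥ d) → 0 < N → ∀ (j₀ : J) (M : ℤ), (∀ z ∈ F.cone, z.2 j₀ ≠ 0) →
    F.w j₀ ⬝ᵥ φ = 0 → (∀ d, N * (g.deg d - s * en d) + M * (F.w j₀ ⬝ᵥ d) = χ ⬝ᵥ d) →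
    Nonempty (Deg.G3 g P (F.serR k F.ex0 P.p i (Pi.single b 1) D i') en s)

end St

end Vale.Agent.P269
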