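import Vale.Agent.P287Q.G.G3.Num
import Vale.Agent.P269.P1.Mon
import Vale.Agent.P269.Pt.Bnd
import Vale.Agent.P269.Pt.Iso

/-!
# Caps: the fully ramified cover of a line
-/

set_option linter.unusedSectionVars false

namespace Vale.Agent.P269

open P291Z Set Function Topology Filter Cv

namespace G3U

open P1 OnePoint

section gen

variable {X : Type} [TopologicalSpace X] {R : RS X} {L : LB R} {s t : X → ℂ} {p : X}

theorem ord_smul {c : ℂ} (hc : c ≠ 0) : L.ord (c • s) p = L.ord s p := by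
  rw [LB.ord, LB.loc_smul]
  exact order_const_mul hc _ _

theorem ord_zero : L.ord 0 p = ⊤ := LB.ord_eq_top.2 (.of_forall fun _ => rfl)

theorem eval_mem {α : Type} [Fintype α] {u : α → X → ℂ} (hu : ∀ o, u o ∈ L.Γ)
    {q : MvPolynomial α ℂ} {n : ℤ} (hq : ∀ a ∈ q.support, (∑ o, a o : ℕ) = n) :
    (fun z => MvPolynomial.eval (fun o => u o z) q) ∈ (L ^ n).Γ := by
  rw [show (fun z => MvPolynomial.eval (fun o => u o z) q) =
    ∑ a ∈ q.support, q.coeff a • ∏ o, u o ^ a o from funext fun z => by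
      simp [MvPolynomial.eval_eq']]
  refine Submodule.sum_mem _ fun a ha => Submodule.smul_mem _ _ ?_
  rw [← hq a ha, zpow_natCast, ← Finset.prod_pow_eq_pow_sum]
  exact LB.prod_mem fun o _ => LB.pow_mem (hu o) _

variable [T2Space X] [CompactSpace X] [ConnectedSpace X]

/-- a section is determined by its divisor -/
theorem eq_smul_of_ord {n : ℕ} (hL : deg L = n) (hs : s ∈ L.Γ) (ht : t ∈ L.Γ) (h1 : L.ord t p = n)
    (h2 : (n : ℕ∞) ≤ L.ord s p) : ∃ c : ℂ, s = c • t := by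
  classical
  obtain ⟨g, g1, g2, g3⟩ := (AnalyticAt.analyticOrderAt_eq_natCast (ht p)).1 h1
  obtain ⟨k, k1, k2⟩ := (natCast_le_analyticOrderAt (hs p)).1 h2
  refine ⟨k 0 / g 0, sub_eq_zero.1 (funext fun x => by_contra fun hx => ?_)⟩
  have m := sub_mem hs (Submodule.smul_mem _ (k 0 / g 0) ht)
  have a := gen_univ m hx
  have w : AnalyticAt ℂ (k - (k 0 / g 0) • g) 0 := k1.sub (g1.const_smul)
  have e : L.ord (s - (k 0 / g 0) • t) p = n + analyticOrderAt (k - (k 0 / g 0) • g) 0 := by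
    rw [← analyticOrderAt_centeredMonomial (𝕜 := ℂ) (z₀ := 0) (n := n),
      ← analyticOrderAt_smul (by fun_prop) w, LB.ord, LB.loc_sub, LB.loc_smul]
    refine analyticOrderAt_congr ?_
    filter_upwards [g3, k2] with z a b
    simp only [Pi.sub_apply, Pi.smul_apply, Pi.smul_apply', Pi.pow_apply, a, b, smul_eq_mul]
    ring
  have e1 : (n + 1 : ℕ) ≤ L.ord (s - (k 0 / g 0) • t) p := by
    rw [e, Nat.cast_succ]
    refine add_le_add_right (Order.one_le_iff_ne_zero.2 fun z => w.analyticOrderAt_eq_zero.1 z ?_) _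
    rw [Pi.sub_apply, Pi.smul_apply, smul_eq_mul, div_mul_cancel₀ _ g2, sub_self]
  have e2 := deg_eq_sum m a (Z := insert p (LB.finite_zeros m a).toFinset) fun y b c =>
    b (Finset.mem_insert_of_mem ((Finite.mem_toFinset _).2 c))
  have e3 := (ENat.toNat_le_toNat e1 ((m p).ord_ne_top.2 (a ▸ mem_univ p))).trans
    (Finset.single_le_sum (f := fun x => (L.ord (s - (k 0 / g 0) • t) x).toNat)
      (fun _ _ => Nat.zero_le _) (Finset.mem_insert_self p (LB.finite_zeros m a).toFinset))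
  rw [ENat.toNat_natCast] at e3
  omega

end gen

theorem ord_mon (d a : ℕ) : (O d).ord (mon d a) (0 : ℂ) = a := by
  rw [← analyticOrderAt_centeredMonomial (𝕜 := ℂ) (z₀ := 0) (n := a), LB.ord]
  exact congrArg (analyticOrderAt · 0) (funext fun t => by simp [P1_loc_coe])

theorem ord_mon' (d : ℕ) : (O d).ord (mon d 0) ∞ = d := by
  rw [← analyticOrderAt_centeredMonomial (𝕜 := ℂ) (z₀ := 0) (n := d), LB.ord]
  refine congrArg (analyticOrderAt · 0) (funext fun t => ?_)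
  by_cases h : t = 0
  · rcases d with _ | d <;> simp [h]
  · rw [P1_loc_infty, O_φ_infty _ h, iv_ne h]
    simp

theorem mk_cases (n : Ch.Mk N2 (Fin 0)) : n = pA ∨ n = pB := by
  rcases n with (n | n) | n
  exacts [.inl (by rw [Subsingleton.elim n 0]), .inr (by rw [Subsingleton.elim n 0]), n.1.elim0]

/-- the points `0` and `∞` -/
def p2 : Ch.Mk N2 (Fin 0) → OnePoint ℂ :=
  Sum.elim (Sum.elim (fun _ => (0 : ℂ)) fun _ => ∞) fun q => q.1.elim0

theorem p2_inj : Injective p2 := fun a b e => by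
  rcases mk_cases a with rfl | rfl <;> rcases mk_cases b with rfl | rfl
  exacts [rfl, (nomatch e), (nomatch e), rfl]

variable {Λ R J : Type} [Fintype Λ] [Fintype R] [Fintype J]

/-- maps from the projective line with two marked points -/
@[reducible] noncomputable def cov (d : R → ℤ) (l : Λ → ℂ) (y : J → OnePoint ℂ → ℂ) :
    AM Λ R J N2 (Fin 0) where
  X := OnePoint ℂ
  R := P1
  N := ∅
  p := p2
  nd := nd_empty
  inj := p2_inj
  sm _ _ h := nomatch h
  L r := O (d r)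
  l := l
  y := y

variable {m : AM Λ R J N2 (Fin 0)} {d : R → ℤ} {t₀ : R → ℂ} {f : OnePoint ℂ ≃ m.X}
  {hf : LIso P1 m.R f} {t : R → OnePoint ℂ → ℂ}

variable (d t₀ hf t) in
/-- a parametrisation with trivialisations of the bundles -/
structure Nrm : Prop where
  mark : ∀ n, f (p2 n) = m.p n
  mem : ∀ r, t r ∈ (hf.pb (m.L r) / O (d r)).Γ
  ne : ∀ r x, t r x ≠ 0
  zero : ∀ r, t r (0 : ℂ) = t₀ r

theorem exists_nrm [ConnectedSpace m.X] (ht : m.Typ 0 d) (hN : m.N = ∅) (h0 : ∀ r, t₀ r ≠ 0) :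
    ∃ (f : OnePoint ℂ ≃ m.X) (hf : LIso P1 m.R f), ∃ t, Nrm d t₀ hf t := by
  obtain ⟨f, hf, e⟩ := exists_iso' (R := m.R) (by
    have := ht.1
    rw [gen, hN, Finset.card_empty] at this
    omega) (by simp) m.inj p2_inj
  choose s a b using fun r => P1.exists_triv (hf.pb (m.L r))
  refine ⟨f, hf, fun r => (t₀ r * s r (0 : ℂ)) • (s r)⁻¹, e, fun r => Submodule.smul_mem _ _ ?_,
    fun r x => mul_ne_zero (mul_ne_zero (h0 r) (b _ _)) (inv_ne_zero (b _ _)),
    fun r => mul_inv_cancel_right₀ (b _ _) _⟩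
  have := LB.inv_mem (a r) (b r)
  rwa [inv_div, ← degOn_univ, hf.degOn_pb f.injective isClopen_univ, image_univ,
    f.surjective.range_eq, degOn_univ, ht.2] at this

namespace Nrm

variable (h : Nrm d t₀ hf t)
include h

theorem scale {a : ℂ} (ha : a ≠ 0) : Nrm (f := (scE (Units.mk0 a ha)).trans f) d t₀
    (hf.comp (liso_sc ha)) fun r y => t r (sc a y) / y.elim (a ^ d r) fun _ => 1 := by
  have k : ∀ r (y : OnePoint ℂ), (y.elim (a ^ d r) fun _ => 1) ≠ 0 := fun r y => by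
    induction y using OnePoint.rec
    exacts [zpow_ne_zero _ ha, one_ne_zero]
  refine ⟨fun n => Eq.trans (congrArg f ?_) (h.mark n), fun r x => ?_,
    fun r x => div_ne_zero (h.ne _ _) (k r x), fun r => ?_⟩
  · rcases mk_cases n with rfl | rfl
    exacts [congrArg _ (mul_zero a), rfl]
  · have := ((liso_sc ha).pb_mem (h.mem r) x).div (sc_mem ha (d r) x) (k r x)
    rwa [map_div, div_div_div_cancel_right] at this
  · exact (div_one _).trans ((congrArg (fun z : ℂ => t r z) (mul_zero a)).trans (h.zero r))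

theorem prod_ne (c : R → ℤ) (x : OnePoint ℂ) : ∏ r, t r x ^ c r ≠ 0 := prod_zpow_ne (h.ne · x) c

theorem exists_sec {c : R → ℤ} {n : ℤ} (hn : ∑ r, c r * d r = n) {y : m.X → ℂ}
    (hy : y ∈ (bz m.L c).Γ) : ∃ g ∈ (O n).Γ, (∀ x, y (f x) = (∏ r, t r x ^ c r) * g x) ∧
      ∀ x, (O n).ord g x = (bz m.L c).ord y (f x) := by
  classical
  have a := (bz_mem (N := ∅) (c := fun x r => t r x) (fun r => H0_empty.ge (h.mem r))
    (fun x r => h.ne r x) c).1
  rw [bz_div, ← hf.pb_bz, bz_O, hn] at a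
  have b := LB.inv_mem a (h.prod_ne c)
  have e : hf.pb (bz m.L c) * (hf.pb (bz m.L c) / O n)⁻¹ = O n := by rw [inv_div, mul_div_cancel]
  refine ⟨_, e ▸ LB.mul_mem (hf.pb_mem hy) b, fun x => ?_, fun x => ?_⟩
  · exact ((mul_comm _ _).trans (inv_mul_cancel_right₀ (h.prod_ne c x) _)).symm
  · rw [← e, LB.ord_mul (hf.pb_mem hy x) (b x), (LB.ord_eq_zero (b x)).2
      (inv_ne_zero (h.prod_ne c x)), add_zero, hf.ord_pb]

end Nrm

end G3U

open G3U P1 OnePoint

variable {Λ R J K : Type} [Fintype Λ] [Fintype R] [Fintype J] [Fintype K] [DecidableEq R]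
  [DecidableEq J] {F : Fam Empty Λ R J K} {l : Λ → ℂ} {b : J} {ρ : ℕ} {I : Fin (ρ + 1) → J}
  {φ χ : R → ℤ} {K₀ : RD R} {μ : ℕ} {x₀ : (Λ → ℂ) × (J → ℂ)}

theorem G3U.actT_snd (t : (Empty → ℂ) × (R → ℂ)) (z : (Λ → ℂ) × (J → ℂ)) (j : J) :
    (F.actT t z).2 j = (∏ r, t.2 r ^ F.w j r) * z.2 j := by
  simp [Wt.actT]

theorem G3U.sum_eq (c : R → ℤ) : ∑ r, c r * (μ • φ) r = μ * (c ⬝ᵥ φ) :=
  (dotProduct_smul μ c φ).trans (nsmul_eq_mul _ _)

theorem Fam.Cap.exists_fld (h : F.Cap l b I φ χ K₀) (hx : x₀ ∈ F.cone) (hβ : x₀.2 b ≠ 0) (μ : ℕ) :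
    ∃ y : J → OnePoint ℂ → ℂ, (∀ j, y j ∈ (O (μ * (F.w j ⬝ᵥ φ))).Γ) ∧
      (∀ z, (l, fun j => y j z) ∈ F.cone) ∧ (∀ j, F.w j ⬝ᵥ φ = 0 → ∀ z, y j z = x₀.2 j) ∧
      y b = x₀.2 b • mon μ 0 ∧ y (I (Fin.last ρ)) = mon μ μ ∧ ∀ a ≠ Fin.last ρ, y (I a) = 0 := by
  obtain ⟨σ, s1, s2, s3, s4, s5⟩ := h.fib x₀ hx
  let u : Option (Fin (ρ + 1)) → OnePoint ℂ → ℂ := fun o =>
    o.elim (x₀.2 b • mon μ 0) fun a => if a = Fin.last ρ then mon μ μ else 0
  refine ⟨fun j z => MvPolynomial.eval (fun o => u o z) (σ j), fun j => O_mul _ _ ▸ eval_mem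
    (fun o => ?_) (s1 j), fun z => s5 _ fun e => ?_, fun j hj z => ?_, funext fun z => ?_,
    funext fun z => ?_, fun a ha => funext fun z => ?_⟩
  · rcases o with _ | a
    · exact Submodule.smul_mem _ _ (mon_mem μ.zero_le)
    · show (if a = Fin.last ρ then mon μ μ else 0) ∈ _
      split_ifs
      exacts [mon_mem le_rfl, zero_mem _]
  · induction z using OnePoint.rec with
    | infty => simpa [u] using congrFun e (.some (Fin.last ρ))
    | coe z => simpa [u, hβ] using congrFun e none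
  · exact (congrArg _ (s2 j hj)).trans (MvPolynomial.eval_C _)
  · exact (congrArg _ s3).trans (MvPolynomial.eval_X _)
  · exact (congrArg _ (s4 _)).trans ((MvPolynomial.eval_X _).trans (congrFun (if_pos rfl) z))
  · exact (congrArg _ (s4 _)).trans ((MvPolynomial.eval_X _).trans (congrFun (if_neg ha) z))

theorem Fam.Cap.uni (h : F.Cap l b I φ χ K₀) (hμ : 0 < μ) (hx : x₀ ∈ F.cone)
    (h0 : ∀ a, x₀.2 (I a) = 0) : ∃ m₀ : AM Λ R J N2 (Fin 0), (∀ α ≤ ρ, F.Ext b I φ μ α m₀) ∧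
      m₀.N = ∅ ∧ m₀.Main F (fun n => uμ μ n • Pi.single b 1) ∧ m₀.vl (m₀.p pA) = x₀ ∧
      ∀ m : AM Λ R J N2 (Fin 0), m.Sol F → m.Typ 0 (μ • φ) → m.N = ∅ → ConnectedSpace m.X →
        m.Main F (fun n => uμ μ n • Pi.single b 1) → (∀ a ≠ Fin.last ρ, m.y (I a) = 0) →
        (μ : ℕ∞) ≤ (bz m.L (F.w (I (Fin.last ρ)))).ord (m.y (I (Fin.last ρ))) (m.p pA) →
        (∃ t, IsUnit t ∧ m.vl (m.p pA) = F.actT t x₀) → AM.Iso F.toWt univ m₀ m := by
  have hβ : x₀.2 b ≠ 0 := (h.nz x₀ hx).resolve_right fun ⟨a, e⟩ => e (h0 a)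
  obtain ⟨y, y1, y2, y3, y4, y5, y6⟩ := h.exists_fld hx hβ μ
  have e1 : ∀ c, bz (fun r => O ((μ • φ) r)) c = O (μ * (c ⬝ᵥ φ)) := fun c => by rw [bz_O, sum_eq]
  have eb : ∑ r, F.w b r * (μ • φ) r = μ := by rw [sum_eq, h.wb, mul_one]
  have eI : ∀ a, ∑ r, F.w (I a) r * (μ • φ) r = μ := fun a => by rw [sum_eq, h.wI, mul_one]
  have hb := (h.base b).2 rfl
  have sol : (cov (μ • φ) l y).Sol F :=
    ⟨h.B.ge rfl, fun j => H0_empty.ge ((e1 _).symm ▸ y1 j), y2⟩
  have typ : (cov (μ • φ) l y).Typ 0 (μ • φ) := ⟨gen_P1, fun _ => deg_O _⟩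
  have o1 : ∀ a ≠ Fin.last ρ, ∀ x, (bz (fun r => O ((μ • φ) r)) (F.w (I a))).ord (y (I a)) x = ⊤ :=
    fun a ha x => y6 a ha ▸ ord_zero
  refine ⟨cov (μ • φ) l y, fun α hα => ⟨sol, ge_iff.2 ?_, typ, ⟨⟨∞⟩, fun U hU _ =>
    isClopen_iff.1 hU⟩, fun a => ?_, fun a _ ha => le_top.trans (o1 a ha _).ge, fun a ha =>
      congrFun (y6 a fun e => by simp only [e, Fin.val_last] at ha; omega) _⟩, rfl,
    ⟨fun _ _ q => q.elim0, fun j a c => ?_⟩, ?_, fun m m1 m2 m3 _ m4 m5 m6 ⟨t₀, m7, m8⟩ => ?_⟩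
  · obtain ⟨θ₀, N, hA⟩ := h.nice.ample
    obtain ⟨i, hi⟩ := Function.ne_iff.1 (show φ ≠ 0 from fun e => by simpa [e] using h.wb)
    have a1 := ge_iff.1 (sol.ge_of_ample hA (.inr ⟨i, .inl rfl⟩))
    have a2 := ge_iff.1 (sol.ge_of_ample hA (.inr ⟨i, .inr rfl⟩))
    rw [typ.deg_bz, sum_eq] at a1 a2
    rw [typ.deg_ω, sum_eq, hA.1]
    simp only [add_dotProduct, sub_dotProduct, smul_dotProduct, single_dotProduct, one_mul,
      Pi.zero_apply] at a1 a2 hi ⊢
    simp only [nsmul_eq_mul] at a1 a2 ⊢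
    have a3 : (0 : ℤ) < μ := by exact_mod_cast hμ
    have a4 := le_of_mul_le_mul_left ((mul_zero _).trans_le a1) a3
    have a5 := le_of_mul_le_mul_left ((mul_zero _).trans_le a2) a3
    have a6 : 0 < θ₀ ⬝ᵥ φ := pos_of_mul_pos_right (a := (N : ℤ)) (by omega) N.cast_nonneg
    have a7 := mul_pos a3 a6
    simp only [Fintype.card_sum, Fintype.card_fin, Fintype.card_prod]
    push_cast
    linarith
  · by_cases ha : a = Fin.last ρ
    · subst ha
      rw [bz_O, eI]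
      exact (ord_mon μ μ).ge.trans (congrArg (fun s => (O μ).ord s (0 : ℂ)) y5).ge
    · exact le_top.trans (o1 a ha _).ge
  · obtain rfl := (h.base j).1 ⟨a, c⟩
    refine ⟨fun n => ?_, fun z hz => ?_⟩
    · rw [bz_O, eb]
      refine (congrArg (fun s => (O μ).ord s (p2 (.inl n))) y4).trans ((ord_smul hβ).trans ?_)
      simp only [Pi.smul_apply, Pi.single_eq_same, smul_eq_mul, mul_one]
      rcases n with n | n
      exacts [ord_mon μ 0, ord_mon' μ]
    · induction z using OnePoint.rec with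
      | infty => exact absurd rfl (hz (.inr 0))
      | coe z => exact (congrFun y4 z).trans_ne (by simpa using hβ)
  · refine h.ext _ (y2 _) _ hx (fun j hj => y3 j hj _) ((congrFun y4 _).trans (mul_one _))
      fun a => Eq.trans ?_ (h0 a).symm
    by_cases ha : a = Fin.last ρ
    · exact ha ▸ (congrFun y5 _).trans (zero_pow hμ.ne')
    · exact congrFun (y6 a ha) _
  have m9 := isUnit_pi_iff.1 (Prod.isUnit_iff.1 m7).2
  have k1 := (m4.2 b hb.1 hb.2).1 (.inr 0)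
  simp only [Pi.smul_apply, Pi.single_eq_same, smul_eq_mul, mul_one] at k1
  have k2 : m.y (I (Fin.last ρ)) (m.p pB) ≠ 0 := by
    obtain ⟨a, ha⟩ := (h.nz _ (m1.2.2 (m.p pB))).resolve_left fun e => hμ.ne'
      (Nat.cast_eq_zero.1 (k1.symm.trans ((LB.ord_eq_zero ((m1.2.1 b).1 _)).2 e)))
    by_cases e : a = Fin.last ρ
    · exact e ▸ ha
    · exact absurd (congrFun (m5 a e) _) ha
  obtain ⟨f, hf, t, H, k3⟩ : ∃ (f : OnePoint ℂ ≃ m.X) (hf : LIso P1 m.R f), ∃ t,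
      Nrm (μ • φ) t₀.2 hf t ∧
        m.y (I (Fin.last ρ)) (m.p pB) = ∏ r, t r ∞ ^ F.w (I (Fin.last ρ)) r := by
    obtain ⟨f, hf, t, H⟩ := exists_nrm m2 m3 m9
    obtain ⟨a, ha⟩ := IsAlgClosed.exists_pow_nat_eq ((∏ r, t r ∞ ^ F.w (I (Fin.last ρ)) r) /
      m.y (I (Fin.last ρ)) (m.p pB)) hμ
    have a0 : a ≠ 0 := fun e => div_ne_zero (H.prod_ne _ _) k2
      (ha.symm.trans (by rw [e, zero_pow hμ.ne']))
    refine ⟨_, _, _, H.scale a0, ?_⟩
    show _ = ∏ r, (t r ∞ / a ^ (μ • φ) r) ^ F.w (I (Fin.last ρ)) r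
    simp only [div_zpow, Finset.prod_div_distrib, ← zpow_mul, mul_comm ((μ • φ) _)]
    rw [← zpow_sum_ne a0, eI, zpow_natCast, ha, div_div_cancel₀ (H.prod_ne _ _)]
  have k4 : ∀ j (g : OnePoint ℂ → ℂ), (∀ x, m.y j (f x) = (∏ r, t r x ^ F.w j r) * g x) →
      g (0 : ℂ) = x₀.2 j := fun j g e => by
    refine mul_left_cancel₀ (H.prod_ne (F.w j) (0 : ℂ)) ((e _).symm.trans ?_)
    simp only [H.zero]
    exact (congrArg (m.y j) (H.mark pA)).trans ((congrFun (congrArg Prod.snd m8) j).trans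
      (actT_snd ..))
  have k5 : ∀ x, m.vl (f x) = F.actT (1, fun r => t r x) (l, fun j => y j x) := fun x => by
    refine h.ext _ (m1.2.2 _) _ (h.nice.toInv.cone_act (Prod.isUnit_iff.2 ⟨isUnit_one,
      isUnit_pi_iff.2 (H.ne · x)⟩) (y2 x)) (fun j hj => ?_) ?_ fun a => ?_ <;> rw [actT_snd]
    · obtain ⟨g, g1, g2, -⟩ := H.exists_sec (n := 0) (by rw [sum_eq, hj, mul_zero]) (m1.2.1 j).1
      obtain ⟨c, rfl⟩ := const_of_mem (O_zero ▸ g1)
      exact (g2 x).trans (congrArg _ ((k4 j _ g2).trans (y3 j hj x).symm))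
    · obtain ⟨g, g1, g2, g3⟩ := H.exists_sec eb (m1.2.1 b).1
      obtain ⟨c, rfl⟩ := eq_smul_of_ord (deg_O μ) g1 (mon_mem μ.zero_le) (ord_mon' μ)
        (k1.symm.trans ((congrArg _ (H.mark pB).symm).trans (g3 _).symm)).le
      obtain rfl : c = x₀.2 b := (mul_one c).symm.trans (k4 b _ g2)
      exact (g2 x).trans (congrArg _ (congrFun y4 x).symm)
    · by_cases ha : a = Fin.last ρ
      · subst ha
        obtain ⟨g, g1, g2, g3⟩ := H.exists_sec (eI _) (m1.2.1 (I (Fin.last ρ))).1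
        obtain ⟨c, rfl⟩ := eq_smul_of_ord (deg_O μ) g1 (mon_mem le_rfl) (ord_mon μ μ)
          (m6.trans_eq ((congrArg _ (H.mark pA).symm).trans (g3 _).symm))
        have := k3.symm.trans ((congrArg _ (H.mark pB).symm).trans (g2 _))
        obtain rfl : c = 1 := by
          simpa [p2] using (mul_right_eq_self₀.1 this.symm).resolve_right (H.prod_ne _ _)
        exact (g2 x).trans (congrArg _ ((one_mul _).trans (congrFun y5 x).symm))
      · exact (congrFun (m5 a ha) _).trans ((mul_zero _).symm.trans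
          (congrArg _ (congrFun (y6 a ha) x).symm))
  exact ⟨f, hf, t, 1, isUnit_one, fun _ _ => by simp [m3], H.mark,
    fun r => ⟨H0_empty.ge (H.mem r), H.ne r, fun q => q.elim0⟩, congrArg Prod.fst (k5 ∞),
    fun j _ x => congrFun (congrArg Prod.snd (k5 x)) j⟩

end Vale.Agent.P269
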