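import Vale.Agent.P287Q.G.G3.ClA
import Vale.Agent.P287Q.G.G3.Jet
import Vale.Agent.P287Q.G.G3.Bdy
import Vale.Agent.P287Q.G.G3.Uni
import Vale.Agent.P287Q.G.G3.Bal

/-!
# The point of the moduli space given by the fully ramified cover
-/

set_option linter.unusedSectionVars false

namespace Vale.Agent.P269.Fam

open Set Function Topology Filter P291Z

variable {Λ R J K : Type} [Fintype Λ] [Fintype R] [Fintype J] [Fintype K] [DecidableEq R]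
  [DecidableEq J] {F : Fam Empty Λ R J K} {l : Λ → ℂ} {b : J} {ρ : ℕ} {I : Fin (ρ + 1) → J}
  {φ χ : R → ℤ} {K₀ : RD R} {k μ α D : ℕ}

namespace KeyA

variable {x : (F.c2 k D φ μ).WF N2 (Fin 0) Λ} {m : AM Λ R J N2 (Fin 0)}
  (hx : x ∈ (F.c2 k D φ μ).solF N2 (Fin 0) F) (a : Ch.Rep ℓs univ x m)
include hx a

theorem vl_eq_zero (n : Ch.Mk N2 (Fin 0)) (j : J) : (Ch.vl x n).2 j = 0 ↔ m.y j (m.p n) = 0 := by
  obtain ⟨t, ht, e⟩ := a.vl (W := F.toWt) hx.1.2.1 chart_wd'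
  rw [e, G3U.actT_snd]
  exact mul_eq_zero_iff_left (Finset.prod_ne_zero_iff.2 fun r _ =>
    zpow_ne_zero _ (isUnit_pi_iff.1 (ht _) r))

theorem mx_of_ext (e : F.Ext b I φ μ α m) : Mx I μ α x :=
  ⟨fun c => (a.vo hx chart_wd').2 (e.ord c), fun c p q => (a.vo hx chart_wd').2 (e.ord' c p q),
    fun c p => (vl_eq_zero hx a _ _).2 (e.van c p)⟩

theorem ext_of_mx (hF : F.Inv) (hD : F.BigD k D) (hc : m.Conn) (e : Mx I μ α x) :
    F.Ext b I φ μ α m :=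
  ⟨(a.mem_solF hx.1.2.1 hF chart_wd').1 hx, rep_stable hD a hx.1.2.1, rep_typ a hx.1.2.1, hc,
    fun c => (a.vo hx chart_wd').1 (e.ord c), fun c p q => (a.vo hx chart_wd').1 (e.ord' c p q),
    fun c p => (vl_eq_zero hx a _ _).1 (e.van c p)⟩

end KeyA

open KeyA

theorem Cap.exists_mx (h : F.Cap l b I φ χ K₀) (hk : F.Big k) (hD : F.BigD k D) (hμ : 0 < μ)
    (hα : α ≤ ρ) {x₀ : (Λ → ℂ) × (J → ℂ)} (hx : x₀ ∈ F.cone) (h0 : ∀ a, x₀.2 (I a) = 0) :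
    ∃ y : F.Z2 k D b φ μ, y.1 ∈ (F.c2 k D φ μ).main (Fin 0) F (u2 b μ) ∧ Ch.vl y.1 pA = x₀ ∧
      Quo.mk _ y ∈ (F.sel fun m => m.Conn : Set (F.M2 k D b φ μ)) ∧ Mx I μ α y.1 ∧
      ∀ x : F.Z2 k D b φ μ, Quo.mk _ x ∈ (F.sel fun m => m.Conn : Set (F.M2 k D b φ μ)) →
        (∃ t, IsUnit t ∧ Ch.vl x.1 pA = F.actT t x₀) → Mx I μ α x.1 →
        Quo.mk (Ch.actF F.toWt) x = Quo.mk _ y := by
  have hF : F.Inv := h.nice.toGood.toInv
  have hI : AM.Ivt F.toWt fun m : AM Λ R J N2 (Fin 0) => m.Conn := fun _ _ e => e.conn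
  obtain ⟨m₀, e₀, -, M₀, v₀, U⟩ := h.uni hμ hx h0
  have e := e₀ α hα
  obtain ⟨y, π, u, a⟩ := exists_repD hk hD e.sol e.stab e.typ (s := 1) fun _ _ => one_ne_zero
  have ys := (a.mem_solF hF chart_wd').2 e.sol
  have ym := (a.mem_main chart_wd' (subset_univ _)
    ((Ch.solF_subset_adm_iff ys).2 fun _ _ q => q.elim0)).2 M₀
  refine ⟨⟨y, ys, subset_closure ym, ys.1⟩, ym, ?_, (mem_sel hI a.rep).2 e.conn,
    mx_of_ext ys a.rep e, fun x hc ⟨t, ht, hv⟩ hm => ?_⟩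
  · rw [a.vl (W := F.toWt) chart_wd', v₀]
    simp only [Pi.one_apply, one_zpow, Finset.prod_const_one]
    exact F.actT_one _
  obtain ⟨m, r⟩ := (chart_lat hD).exists_rep_sol x.2.1
  have E := ext_of_mx (b := b) x.2.1 r hF hD ((mem_sel hI r).1 hc) hm
  have hb := (h.base b).2 rfl
  have B := r.bal (chart_cuts hD) hF (chart_lat hD) x.2.2 (subset_univ _) hb.1 hb.2
  simp only [Pi.smul_apply, Pi.single_eq_same, smul_eq_mul, mul_one] at B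
  obtain ⟨n, c, M, z⟩ := h.bdy hμ hα E B
  obtain ⟨s, hs, w⟩ := r.vl (W := F.toWt) x.2.1.1.2.1 chart_wd'
  refine ((Ch.mk_eq_iff_iso (chart_lat hD) (chart_cuts hD).1 chart_tight (fun _ q => q.1.1.2.1)
    a.rep r).2 (U m E.sol E.typ n c M z (E.ord _) ?_)).symm
  obtain ⟨v, hv'⟩ := (Prod.isUnit_iff.2 ⟨isUnit_one, hs _⟩ :
    IsUnit ((1, s (pA.map id Prod.fst)) : (Empty → ℂ) × (R → ℂ))).exists_left_inv
  refine ⟨v * t, (IsUnit.of_mul_eq_one _ hv').mul ht, ?_⟩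
  rw [F.actT_mul, ← hv, w, ← F.actT_mul, hv', F.actT_one]

end Vale.Agent.P269.Fam
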