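import Vale.Agent.P287Q.G.G3.Defs

/-!
# Caps: degrees of maps in the fibre classes
-/

set_option linter.unusedSectionVars false

namespace Vale.Agent.P269

open P291Z Set Function Topology Filter Cv

variable {Λ R J K ν κ : Type} [Fintype Λ] [Fintype R] [Fintype J] [Fintype K] [Fintype ν]
  [Fintype κ] [DecidableEq R] [DecidableEq J] {m : AM Λ R J ν κ} {U : Set m.X}

namespace G3N

theorem mono_mem {S : Type} [Fintype S] {W : Wt S Λ R J} (hm : m.Sec W) {α : J → ℕ} {c : R → ℤ}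
    (h : ∀ i, ∑ j, α j * W.w j i = c i) : ∏ j, m.y j ^ α j ∈ H0 m.N (bz m.L c) := by
  have e : c = ∑ j, (α j : ℤ) • W.w j := funext fun i => by simp [← h i]
  rw [e, bz_sum]
  exact H0.prod_mem fun j _ => by
    rw [bz_smul, zpow_natCast]
    exact H0.pow_mem (hm j) _

theorem exists_sec {S : Type} [Fintype S] {F : Fam S Λ R J K} {c : R → ℤ} (h : F.Gn c)
    (hm : m.Sol F) (z : m.X) : ∃ s ∈ H0 m.N (bz m.L c), s z ≠ 0 :=
  let ⟨_, a, b⟩ := h _ (hm.2.2 z)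
  ⟨_, mono_mem hm.2.1 a, by simpa [AM.vl] using b⟩

/-- A section of a bundle of degree zero on all components has no zero or vanishes. -/
theorem ne_of_conn {L : LB m.R} {s : m.X → ℂ} (hc : m.Conn) (hL : ∀ U, IsClopen U → degOn L U = 0)
    (hs : s ∈ H0 m.N L) {x : m.X} (hx : s x ≠ 0) (y : m.X) : s y ≠ 0 := by
  have k : ∀ z, z ∈ Gen s ↔ s z ≠ 0 := fun z => ⟨fun hz h0 => by
    have := card_le_degOn (isClopen_gen hs.1) (fun x _ => hs.1 x) subset_rfl (T := {z})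
      (by simpa using ⟨hz, h0⟩)
    rw [hL _ (isClopen_gen hs.1)] at this
    simp at this, (hs.1 z).mem_gen⟩
  rcases hc.2 _ (isClopen_gen hs.1) (fun n hn => by rw [k, k, hs.2 n hn]) with e | e
  · exact absurd ((k x).2 hx) (e ▸ notMem_empty x)
  · exact (k y).1 (e ▸ mem_univ y)

theorem const_of_conn {s : m.X → ℂ} (hc : m.Conn) (hs : s ∈ H0 m.N (1 : LB m.R)) (x y : m.X) :
    s x = s y := by
  by_contra h
  exact ne_of_conn hc (fun U _ => degOn_one U)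
    (sub_mem hs (Submodule.smul_mem _ (s y) H0.one_mem)) (x := x) (by simpa [sub_eq_zero] using h)
    y (by simp)

end G3N

theorem Fam.Gn.degOn_nonneg {S : Type} [Fintype S] {F : Fam S Λ R J K} {c : R → ℤ} (h : F.Gn c)
    (hm : m.Sol F) (hU : IsClopen U) : 0 ≤ degOn (bz m.L c) U := by
  obtain ⟨s, a, b, -⟩ := exists_gen (L := bz m.L c) H0_le (G3N.exists_sec h hm) finite_empty
  simpa using card_le_degOn hU (fun x _ => a.1 x) (b ▸ subset_univ U) (T := ∅) (by simp)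

namespace Fam.Cap

variable {F : Fam Empty Λ R J K} {l : Λ → ℂ} {b : J} {ρ : ℕ} {I : Fin (ρ + 1) → J} {φ χ d : R → ℤ}
  {K₀ : RD R} {g : ℤ} (h : F.Cap l b I φ χ K₀) (hm : m.Sol F) (ht : m.Typ g d)
include h

theorem gn_χ : F.Gn χ := by
  rcases isEmpty_or_nonempty R with e | ⟨⟨r⟩⟩
  · simpa [dotProduct] using h.wb
  · simpa using h.gn r 0 (by simp)

include hm ht

omit h hm in
theorem deg_eq (c : R → ℤ) : degOn (bz m.L c) univ = c ⬝ᵥ d := by
  simp only [degOn_univ, deg_bz, ht.2, dotProduct]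

theorem degOn_χ (h0 : χ ⬝ᵥ d = 0) (hU : IsClopen U) : degOn (bz m.L χ) U = 0 := by
  have h1 := h.gn_χ.degOn_nonneg hm hU
  have h2 := h.gn_χ.degOn_nonneg hm hU.compl
  have h3 := degOn_add_compl (L := bz m.L χ) hU
  rw [← degOn_univ, deg_eq ht, h0] at h3
  omega

theorem degOn_rel (h0 : χ ⬝ᵥ d = 0) (r : R) (hU : IsClopen U) :
    degOn (bz m.L (Pi.single r 1 - φ r • F.w b)) U = 0 := by
  have h1 := (h.gn r 1 (by simp)).degOn_nonneg hm hU
  have h2 := (h.gn r (-1) (by simp)).degOn_nonneg hm hU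
  rw [bz_add, bz_smul, degOn_mul, degOn_zpow, h.degOn_χ hm ht h0 hU] at h1 h2
  omega

theorem degOn_bz' (h0 : χ ⬝ᵥ d = 0) (c : R → ℤ) (hU : IsClopen U) :
    degOn (bz m.L c) U = degOn (bz m.L (F.w b)) U * (c ⬝ᵥ φ) := by
  rw [Cv.degOn_bz m.L c, dotProduct, Finset.mul_sum]
  refine Finset.sum_congr rfl fun r _ => ?_
  have h1 := h.degOn_rel hm ht h0 r hU
  rw [bz_sub, bz_single, bz_smul, degOn_div, zpow_one, degOn_zpow, sub_eq_zero] at h1
  rw [h1]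
  ring

theorem degOn_nonneg' (h0 : χ ⬝ᵥ d = 0) (U : Set m.X) : 0 ≤ degOn (bz m.L (F.w b)) U := by
  refine ((ge_iff_comp le_rfl).2 fun x => ?_ : Ge (bz m.L (F.w b)) 0).nonneg U
  obtain ⟨a, c⟩ := exists_comp (R := m.R) x
  have k : ∀ j, m.y j x ≠ 0 → 0 ≤ degOn (bz m.L (F.w j)) (connectedComponent x) := fun j hj => by
    have e := (hm.2.1 j).1
    simpa using card_le_degOn a (fun x _ => e x) (T := ∅)
      ((isClopen_gen e).connectedComponent_subset ((e x).mem_gen hj)) (by simp)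
  rcases h.nz _ (hm.2.2 x) with e | ⟨i, e⟩
  · exact k b e
  · have := k _ e
    rwa [h.degOn_bz' hm ht h0 _ a, h.wI, mul_one] at this

theorem eff : 0 ≤ χ ⬝ᵥ d ∧ (χ ⬝ᵥ d = 0 → d = (F.w b ⬝ᵥ d) • φ ∧ 0 ≤ F.w b ⬝ᵥ d) := by
  refine ⟨deg_eq ht χ ▸ h.gn_χ.degOn_nonneg hm isClopen_univ, fun h0 =>
    ⟨funext fun r => ?_, deg_eq ht _ ▸ h.degOn_nonneg' hm ht h0 univ⟩⟩
  have := h.degOn_bz' hm ht h0 (Pi.single r 1) isClopen_univ
  simpa [deg_eq ht] using this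

variable (h0 : χ ⬝ᵥ d = 0)
include h0

theorem degOn_bz (c : R → ℤ) (hU : IsClopen U) :
    degOn (bz m.L c) U = degOn (bz m.L (F.w b)) U * (c ⬝ᵥ φ) := h.degOn_bz' hm ht h0 c hU

set_option linter.unusedVariables false in
theorem degOn_nonneg (hU : IsClopen U) : 0 ≤ degOn (bz m.L (F.w b)) U :=
  h.degOn_nonneg' hm ht h0 U

theorem exists_triv (hc : m.Conn) (z₀ : m.X) : ∃ τ : R → m.X → ℂ,
    (∀ r, τ r ∈ H0 m.N (bz m.L (Pi.single r 1 - φ r • F.w b))) ∧ (∀ r z, τ r z ≠ 0) ∧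
    (∀ r, τ r z₀ = 1) ∧
    ∀ j, F.w j ⬝ᵥ φ = 0 → ∀ z, m.y j z = m.y j z₀ * ∏ r, τ r z ^ F.w j r := by
  obtain ⟨s, s1, s2⟩ := G3N.exists_sec h.gn_χ hm z₀
  have s3 := G3N.ne_of_conn hc (fun U => h.degOn_χ hm ht h0) s1 s2
  have k : ∀ r, ∃ τ ∈ H0 m.N (bz m.L (Pi.single r 1 - φ r • F.w b)), (∀ z, τ z ≠ 0) ∧ τ z₀ = 1 :=
    fun r => by
      obtain ⟨t, t1, t2⟩ := G3N.exists_sec (h.gn r 1 (by simp)) hm z₀
      have t3 := H0.mul_mem t1 (H0.inv_mem s1 s3)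
      rw [one_smul, bz_add, mul_inv_cancel_comm] at t3
      have t4 := Submodule.smul_mem _ (s z₀ / t z₀) t3
      have t5 : ((s z₀ / t z₀) • (t * s⁻¹)) z₀ = 1 := by
        simp only [Pi.smul_apply, Pi.mul_apply, Pi.inv_apply, smul_eq_mul]
        field_simp
      exact ⟨_, t4, G3N.ne_of_conn hc (fun U => h.degOn_rel hm ht h0 r) t4
        (t5.trans_ne one_ne_zero), t5⟩
  choose τ a c e using k
  refine ⟨τ, a, c, e, fun j hj z => ?_⟩
  have h1 := bz_mem (c := fun z r => τ r z) a (fun z r => c r z) (F.w j)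
  have h2 : (bz (fun r => bz m.L (Pi.single r 1 - φ r • F.w b)) (F.w j)) = bz m.L (F.w j) := by
    rw [bz]
    simp only [← bz_smul, ← bz_sum, smul_sub, Finset.sum_sub_distrib, smul_smul,
      ← Finset.sum_smul]
    rw [show ∑ r, F.w j r * φ r = 0 from hj, zero_smul, sub_zero]
    exact congrArg _ (funext fun r => by simp [Pi.single_apply])
  have h3 : ∀ z, ∏ r, τ r z ^ F.w j r ≠ 0 := fun z =>
    Finset.prod_ne_zero_iff.2 fun r _ => zpow_ne_zero _ (c r z)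
  have h4 := H0.mul_mem (hm.2.1 j) (H0.inv_mem (h2 ▸ h1) h3)
  rw [mul_inv_cancel] at h4
  have h5 := G3N.const_of_conn hc h4 z z₀
  simp only [Pi.mul_apply, Pi.inv_apply, e, one_zpow, Finset.prod_const_one, inv_one,
    mul_one] at h5
  rw [← h5, inv_mul_cancel_right₀ (h3 z)]

theorem gauge (hc : m.Conn) (z z' : m.X) : ∃ t : R → ℂ, IsUnit t ∧
    ∀ j, F.w j ⬝ᵥ φ = 0 → (F.actT (1, t) (m.vl z)).2 j = m.y j z' := by
  obtain ⟨τ, -, a, -, c⟩ := h.exists_triv hm ht h0 hc z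
  refine ⟨fun r => τ r z', Pi.isUnit_iff.2 fun r => (a r z').isUnit, fun j hj => ?_⟩
  rw [c j hj z']
  simp [Wt.actT, AM.vl, mul_comm]

end Fam.Cap

end Vale.Agent.P269
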